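import Mathlib

namespace Vale.Agent.P208

/-! The shift graph on increasing tuples has unbounded chromatic number. -/

/-- Alphabet size forcing a monochromatic edge in the shift graph on `n + 1`-tuples. -/
def shiftBound : ℕ → ℕ → ℕ
  | C, 0 => C + 1
  | C, n + 1 => shiftBound (2 ^ C) n

theorem shift_mono_edge : ∀ (n : ℕ) (κ : Type) [Fintype κ] (m : ℕ),
    shiftBound (Fintype.card κ) n ≤ m → ∀ col : (Fin (n + 1) → Fin m) → κ,
    ∃ a b : Fin (n + 1) → Fin m, StrictMono a ∧ StrictMono b ∧ a 0 < b 0 ∧
      (∀ i : Fin n, b i.castSucc = a i.succ) ∧ col a = col b := by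
  intro n
  induction n with
  | zero =>
    intro κ _ m hm col
    have hcard : Fintype.card κ < Fintype.card (Fin m) := by
      simp only [Fintype.card_fin]; simp only [shiftBound] at hm; omega
    obtain ⟨i, j, hij, hc⟩ :=
      Fintype.exists_ne_map_eq_of_card_lt (fun i : Fin m => col (fun _ => i)) hcard
    have hmono : ∀ i : Fin m, StrictMono (fun _ : Fin 1 => i) := by
      intro i x y hxy
      exact absurd hxy (by rw [Subsingleton.elim x y]; exact lt_irrefl y)
    rcases lt_or_gt_of_ne hij with h | h
    · exact ⟨fun _ => i, fun _ => j, hmono i, hmono j, h, fun i => i.elim0, hc⟩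
    · exact ⟨fun _ => j, fun _ => i, hmono j, hmono i, h, fun i => i.elim0, hc.symm⟩
  | succ n ih =>
    intro κ _ m hm col
    classical
    let col' : (Fin (n + 1) → Fin m) → Finset κ := fun s =>
      Finset.univ.filter (fun c => ∃ x : Fin m, x < s 0 ∧ col (Fin.cons x s) = c)
    have hm' : shiftBound (Fintype.card (Finset κ)) n ≤ m := by
      rw [Fintype.card_finset]; exact hm
    obtain ⟨a, b, ha, hb, hab, hshift, hc⟩ := ih (Finset κ) m hm' col'
    have hmem : col (Fin.cons (a 0) b) ∈ col' b := by
      simp only [col', Finset.mem_filter, Finset.mem_univ, true_and]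
      exact ⟨a 0, hab, rfl⟩
    rw [← hc] at hmem
    simp only [col', Finset.mem_filter, Finset.mem_univ, true_and] at hmem
    obtain ⟨x, hx, hxc⟩ := hmem
    refine ⟨Fin.cons x a, Fin.cons (a 0) b, ?_, ?_, ?_, ?_, hxc⟩
    · exact strictMono_vecCons.mpr ⟨hx, ha⟩
    · exact strictMono_vecCons.mpr ⟨hab, hb⟩
    · simpa using hx
    · intro i
      induction i using Fin.cases with
      | zero => simp
      | succ j =>
        rw [← Fin.succ_castSucc, Fin.cons_succ, Fin.cons_succ]
        exact hshift j

end Vale.Agent.P208
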