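import Mathlib
import Vale.Agent.P208.Shift

namespace Vale.Agent.P208

open scoped RealInnerProductSpace

noncomputable section

/-! ### Parameters -/

/-- Square root of the tuple length. -/
def sN (k D : ℕ) : ℕ := 15 * D + k + 2

/-- Tuple length minus one. -/
def nN (k D : ℕ) : ℕ := sN k D ^ 2 - 1

lemma nN_succ (k D : ℕ) : nN k D + 1 = sN k D ^ 2 := by
  have : 1 ≤ sN k D ^ 2 := Nat.one_le_pow _ _ (by simp [sN])
  simp only [nN]; omega

/-- Range of colours per coordinate. -/
def colR (k D : ℕ) : ℕ := 2 * D * sN k D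

/-- Alphabet size. -/
def alph (k D : ℕ) : ℕ := shiftBound (Fintype.card (Fin k → Fin (2 * colR k D + 1))) (nN k D)

/-- Nodes: increasing tuples. -/
abbrev Node (k D : ℕ) : Type := {a : Fin (nN k D + 1) → Fin (alph k D) // StrictMono a}

lemma exists_edge (k D : ℕ) (col : Node k D → (Fin k → Fin (2 * colR k D + 1))) :
    ∃ a b : Node k D, (∀ i : Fin (nN k D), b.1 i.castSucc = a.1 i.succ) ∧ col a = col b := by
  classical
  obtain ⟨a, b, ha, hb, -, hs, hc⟩ := shift_mono_edge (nN k D) _ (alph k D) le_rfl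
    (fun a => if h : StrictMono a then col ⟨a, h⟩ else fun _ => 0)
  refine ⟨⟨a, ha⟩, ⟨b, hb⟩, hs, ?_⟩
  rwa [dif_pos ha, dif_pos hb] at hc

/-- Number of nodes. -/
def G (k D : ℕ) : ℕ := Nat.card (Node k D)

lemma G_pos (k D : ℕ) : 0 < G k D := by
  obtain ⟨a, -⟩ := exists_edge k D (fun _ _ => 0)
  haveI : Nonempty (Node k D) := ⟨a⟩
  exact Nat.card_pos

/-- The node hosted by a row or column number. -/
def node (k D n : ℕ) : Node k D :=
  (Finite.equivFin (Node k D)).symm ⟨n % G k D, Nat.mod_lt _ (G_pos k D)⟩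

/-- The inverse of the offset unit. -/
def M (k D : ℕ) : ℕ := 256 * (sN k D ^ 2 + 1)

/-- The offset unit. -/
def t (k D : ℕ) : ℝ := 1 / (M k D : ℝ)

/-- Number of vertical periods. -/
def My (k D : ℕ) : ℕ := 128 * D ^ 2 * G k D ^ 3 * M k D ^ 2

/-- Number of rows. -/
def Y (k D : ℕ) : ℕ := My k D * G k D

/-- Number of allowed vertical improvements. -/
def Qn (k D : ℕ) : ℕ := 32 * D ^ 2 * G k D ^ 3 * M k D ^ 2 + 1

/-- The denominator of the horizontal gain. -/
def C0 (k D : ℕ) : ℕ := 6144 * D ^ 2 * (Y k D + 1) * G k D ^ 6 * M k D ^ 5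

/-- Growth constant of the widths. -/
def C1 (k D : ℕ) : ℕ := 32 * D ^ 2 * C0 k D

/-- Column width of a gadget of type `q`. -/
def W (k D : ℕ) : ℕ → ℕ
  | 0 => 1
  | q + 1 => C1 k D * W k D q ^ 3

/-- Width of a gadget of type `q`. -/
def X (k D q : ℕ) : ℕ := Y k D * W k D (q + 1)

/-- Number of horizontal blocks. -/
def Mx (k D q : ℕ) : ℕ := My k D * C1 k D * W k D q ^ 2

/-- Number of column strips. -/
def ncol (k D q : ℕ) : ℕ := Mx k D q * G k D

/-- Number of horizontal pieces. -/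
def npc (k D q : ℕ) : ℕ := X k D q * M k D

lemma ncol_mul_W (k D q : ℕ) : ncol k D q * W k D q = X k D q := by
  simp only [ncol, Mx, X, Y, W]; ring

section pos
variable {k D : ℕ} (hD : 1 ≤ D)
include hD

lemma M_pos : 0 < M k D := by
  have : 0 < sN k D ^ 2 + 1 := Nat.succ_pos _
  simp only [M]; omega

lemma My_pos : 0 < My k D := by
  have := G_pos k D; have := M_pos (k := k) hD
  simp only [My]; positivity

lemma Y_pos : 0 < Y k D := Nat.mul_pos (My_pos hD) (G_pos k D)

lemma C0_pos : 0 < C0 k D := by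
  have := G_pos k D; have := M_pos (k := k) hD
  simp only [C0]; positivity

lemma C1_pos : 0 < C1 k D := by
  have := C0_pos (k := k) hD
  simp only [C1]; positivity

lemma C1_two : 2 ≤ C1 k D := by
  have h0 := C0_pos (k := k) hD
  have hd : 1 ≤ D ^ 2 := Nat.one_le_pow _ _ hD
  simp only [C1]
  calc 2 ≤ 32 * 1 * 1 := by norm_num
    _ ≤ 32 * D ^ 2 * C0 k D := by gcongr; exact h0

lemma W_pos : ∀ q, 0 < W k D q
  | 0 => Nat.one_pos
  | q + 1 => Nat.mul_pos (C1_pos hD) (pow_pos (W_pos q) 3)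

lemma X_pos (q : ℕ) : 0 < X k D q := Nat.mul_pos (Y_pos hD) (W_pos hD _)

lemma t_pos : 0 < t k D := by
  have := M_pos (k := k) hD
  simp only [t]; positivity

lemma t_le : t k D ≤ 1 / 256 := by
  have h : (256 : ℕ) ≤ M k D := by simp only [M]; omega
  have h' : (256 : ℝ) ≤ M k D := by exact_mod_cast h
  simp only [t]
  exact one_div_le_one_div_of_le (by norm_num) h'

end pos

/-! ### Geometry in a real inner product space with an orthonormal sequence -/

variable {E : Type*} [NormedAddCommGroup E] [InnerProductSpace ℝ E] (e : ℕ → E)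

/-- Point with given planar coordinates and offset. -/
def pt (x y : ℝ) (u : E) : E := x • e 0 + y • e 1 + u

/-- A similarity. -/
def place (s : ℝ) (o z : E) : E := o + s • z

lemma place_pt (s a b x y : ℝ) (w u : E) :
    place s (pt e a b w) (pt e x y u) = pt e (a + s * x) (b + s * y) (w + s • u) := by
  simp only [place, pt]; module

lemma place_sub (s : ℝ) (o z z' : E) : place s o z - place s o z' = s • (z - z') := by
  simp only [place]; module

lemma pt_sub (x y x' y' : ℝ) (u u' : E) :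
    pt e x y u - pt e x' y' u' = pt e (x - x') (y - y') (u - u') := by
  simp only [pt]; module

/-- The alternating vector of a tuple. -/
def vec {N m : ℕ} (a : Fin N → Fin m) : E :=
  ∑ i : Fin N, ((-1 : ℝ) ^ (i : ℕ)) • e (3 + (a i : ℕ))

/-- The vector of a row or column number. -/
def vN (k D n : ℕ) : E := vec e (node k D n).1

/-- Signs of the three sheets of a row. -/
def sgR : Fin 3 → ℝ := ![0, 1, -1]

/-- Signs of the two sheets of a column. -/
def sgC : Fin 2 → ℝ := ![1, -1]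

/-- Row offsets. -/
def offR (k D : ℕ) (s : Fin 3) (n : ℕ) : E := (sgR s * t k D) • vN e k D n

/-- Column offsets. -/
def offC (k D : ℕ) (s : Fin 2) (c : ℕ) : E := (sgC s * t k D) • (vN e k D c + e 2)

/-- The subgroup of integer combinations. -/
def Lat : AddSubgroup E := AddSubgroup.closure (Set.range e)

section orth
variable (he : Orthonormal ℝ e)
include he

lemma inner_e (i j : ℕ) : ⟪e i, e j⟫ = if i = j then (1 : ℝ) else 0 :=
  orthonormal_iff_ite.mp he i j

lemma inner_vec_low {N m : ℕ} (a : Fin N → Fin m) {j : ℕ} (hj : j < 3) :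
    ⟪e j, vec e a⟫ = 0 := by
  simp only [vec, inner_sum, real_inner_smul_right, inner_e e he]
  apply Finset.sum_eq_zero
  intro i _
  rw [if_neg (by omega), mul_zero]

lemma norm_vec {N m : ℕ} {a : Fin N → Fin m} (ha : Function.Injective a) :
    ‖vec e a‖ = Real.sqrt N := by
  have hinj : Function.Injective (fun i : Fin N => 3 + (a i : ℕ)) := by
    intro i j h
    exact ha (Fin.ext (by simpa using h))
  have h := (he.comp _ hinj).inner_sum (fun i : Fin N => (-1 : ℝ) ^ (i : ℕ))
    (fun i : Fin N => (-1 : ℝ) ^ (i : ℕ)) Finset.univ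
  have h2 : ⟪vec e a, vec e a⟫ = (N : ℝ) := by
    simp only [vec]
    refine h.trans ?_
    simp [← mul_pow]
  rw [norm_eq_sqrt_real_inner, h2]

lemma norm_edge {n m : ℕ} (a b : Fin (n + 1) → Fin m)
    (h : ∀ i : Fin n, b i.castSucc = a i.succ) : ‖vec e a + vec e b‖ ≤ 2 := by
  have key : vec e a + vec e b
      = e (3 + (a 0 : ℕ)) + ((-1 : ℝ) ^ n) • e (3 + (b (Fin.last n) : ℕ)) := by
    simp only [vec]
    rw [Fin.sum_univ_succ (n := n), Fin.sum_univ_castSucc (n := n)]
    simp only [h, Fin.val_succ, Fin.val_castSucc, Fin.val_zero, Fin.val_last, pow_zero, one_smul,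
      pow_succ]
    have hs : ∀ i : Fin n, ((-1 : ℝ) ^ (i : ℕ) * -1) • e (3 + (a i.succ : ℕ))
        = -(((-1 : ℝ) ^ (i : ℕ)) • e (3 + (a i.succ : ℕ))) := fun i => by
      rw [mul_neg_one, neg_smul]
    simp only [hs, Finset.sum_neg_distrib]
    abel
  rw [key]
  refine (norm_add_le _ _).trans ?_
  rw [norm_smul, he.1, he.1]
  simp
  norm_num

lemma xc_pt (x y : ℝ) {u : E} (hu : ⟪e 0, u⟫ = 0) : ⟪e 0, pt e x y u⟫ = x := by
  simp [pt, inner_add_right, real_inner_smul_right, inner_e e he, hu, he.1]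

lemma yc_pt (x y : ℝ) {u : E} (hu : ⟪e 1, u⟫ = 0) : ⟪e 1, pt e x y u⟫ = y := by
  simp [pt, inner_add_right, real_inner_smul_right, inner_e e he, hu, he.1]

lemma inner_offR (k D : ℕ) (s : Fin 3) (n : ℕ) {j : ℕ} (hj : j < 3) :
    ⟪e j, offR e k D s n⟫ = 0 := by
  simp only [offR, vN, real_inner_smul_right, inner_vec_low e he _ hj, mul_zero]

lemma inner_offC (k D : ℕ) (s : Fin 2) (c : ℕ) {j : ℕ} (hj : j < 2) :
    ⟪e j, offC e k D s c⟫ = 0 := by
  simp only [offC, vN, real_inner_smul_right, inner_add_right,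
    inner_vec_low e he _ (show j < 3 by omega), inner_e e he]
  rw [if_neg (by omega)]; simp

lemma inner_offC_two (k D : ℕ) (s : Fin 2) (c : ℕ) :
    ⟪e 2, offC e k D s c⟫ = sgC s * t k D := by
  simp [offC, vN, real_inner_smul_right, inner_add_right, inner_vec_low e he _ (show 2 < 3 by omega),
    inner_e e he, he.1]

lemma norm_vN (k D n : ℕ) : ‖vN e k D n‖ = (sN k D : ℝ) := by
  rw [vN, norm_vec e he (node k D n).2.injective, nN_succ]
  push_cast
  exact Real.sqrt_sq (Nat.cast_nonneg _)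

lemma norm_pt_sub_x (x x' y : ℝ) (u : E) : ‖pt e x y u - pt e x' y u‖ = |x - x'| := by
  have : pt e x y u - pt e x' y u = (x - x') • e 0 := by simp only [pt]; module
  rw [this, norm_smul, he.1, mul_one, Real.norm_eq_abs]

lemma norm_pt_sub_y (x y y' : ℝ) (u : E) : ‖pt e x y u - pt e x y' u‖ = |y - y'| := by
  have : pt e x y u - pt e x y' u = (y - y') • e 1 := by simp only [pt]; module
  rw [this, norm_smul, he.1, mul_one, Real.norm_eq_abs]

lemma lat_inner_int {u w : E} (hu : u ∈ Lat e) (hw : w ∈ Lat e) : ∃ z : ℤ, ⟪u, w⟫ = z := by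
  induction hu using AddSubgroup.closure_induction generalizing w with
  | mem u hu =>
    obtain ⟨i, rfl⟩ := hu
    induction hw using AddSubgroup.closure_induction with
    | mem w hw =>
      obtain ⟨j, rfl⟩ := hw
      rw [inner_e e he]
      split
      · exact ⟨1, by simp⟩
      · exact ⟨0, by simp⟩
    | zero => exact ⟨0, by simp⟩
    | add a b _ _ iha ihb =>
      obtain ⟨za, hza⟩ := iha; obtain ⟨zb, hzb⟩ := ihb
      exact ⟨za + zb, by rw [inner_add_right, hza, hzb]; push_cast; ring⟩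
    | neg a _ iha =>
      obtain ⟨za, hza⟩ := iha
      exact ⟨-za, by rw [inner_neg_right, hza]; push_cast; ring⟩
  | zero => exact ⟨0, by simp⟩
  | add a b _ _ iha ihb =>
    obtain ⟨za, hza⟩ := iha hw; obtain ⟨zb, hzb⟩ := ihb hw
    exact ⟨za + zb, by rw [inner_add_left, hza, hzb]; push_cast; ring⟩
  | neg a _ iha =>
    obtain ⟨za, hza⟩ := iha hw
    exact ⟨-za, by rw [inner_neg_left, hza]; push_cast; ring⟩

lemma lat_norm_ge {u : E} (hu : u ∈ Lat e) (h0 : u ≠ 0) : 1 ≤ ‖u‖ := by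
  obtain ⟨z, hz⟩ := lat_inner_int e he hu hu
  have hpos : 0 < ⟪u, u⟫ := real_inner_self_pos.mpr h0
  have h1 : (1 : ℤ) ≤ z := by
    have : (0 : ℝ) < z := hz ▸ hpos
    exact_mod_cast this
  rw [norm_eq_sqrt_real_inner, Real.one_le_sqrt, hz]
  exact_mod_cast h1

end orth

lemma e_mem_lat (i : ℕ) : e i ∈ Lat e := AddSubgroup.subset_closure ⟨i, rfl⟩

lemma vN_mem_lat (k D n : ℕ) : vN e k D n ∈ Lat e := by
  simp only [vN, vec]
  refine AddSubgroup.sum_mem _ fun i _ => ?_
  rcases neg_one_pow_eq_or ℝ (i : ℕ) with h | h <;> rw [h]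
  · simpa using e_mem_lat e _
  · simpa using neg_mem (e_mem_lat e _)

lemma offR_eq (k D : ℕ) (s : Fin 3) (n : ℕ) :
    ∃ w ∈ Lat e, offR e k D s n = t k D • w := by
  fin_cases s
  · exact ⟨0, zero_mem _, by simp [offR, sgR]⟩
  · exact ⟨_, vN_mem_lat e k D n, by simp [offR, sgR]⟩
  · exact ⟨_, neg_mem (vN_mem_lat e k D n), by simp [offR, sgR]⟩

lemma offC_eq (k D : ℕ) (s : Fin 2) (c : ℕ) :
    ∃ w ∈ Lat e, offC e k D s c = t k D • w := by
  fin_cases s
  · exact ⟨_, add_mem (vN_mem_lat e k D c) (e_mem_lat e 2), by simp [offC, sgC]⟩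
  · exact ⟨_, neg_mem (add_mem (vN_mem_lat e k D c) (e_mem_lat e 2)),
      by simp only [offC, sgC]; simp; module⟩

end

end Vale.Agent.P208
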