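import Mathlib
import Vale.Agent.P208.Base

namespace Vale.Agent.P208

open scoped RealInnerProductSpace

noncomputable section

/-- Indices of the row children. -/
abbrev IR (k D q : ℕ) : Type := Fin (npc k D q) × Fin (Y k D + 1) × Fin 3

/-- Indices of the column children. -/
abbrev IC (k D q : ℕ) : Type := Fin (ncol k D q) × Fin (Y k D) × Fin 2

/-- Scale of row children. -/
def sR (k D : ℕ) : ℝ := t k D / (X k D (Qn k D) : ℝ)

/-- Scale of column children. -/
def sC (k D : ℕ) : ℝ := 1 / (Y k D : ℝ)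

/-- Height at which a row child starts. -/
def yR (k D n : ℕ) : ℝ := if n < Y k D then (n : ℝ) else (Y k D : ℝ) - (Y k D : ℝ) * sR k D

variable {E : Type*} [NormedAddCommGroup E] [InnerProductSpace ℝ E] (e : ℕ → E)

/-- Origin of a row child. -/
def oR (k D q : ℕ) (i : IR k D q) : E :=
  pt e ((i.1 : ℕ) * t k D) (yR k D i.2.1) (offR e k D i.2.2 i.2.1)

/-- Origin of a column child. -/
def oC (k D q : ℕ) (i : IC k D q) : E :=
  pt e (((i.1 : ℕ) : ℝ) * (W k D q : ℝ)) ((i.2.1 : ℕ) : ℝ) (offC e k D i.2.2 i.1)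

/-- A bare rectangle. -/
def rect (k D q : ℕ) : Set E :=
  {z | ∃ x y : ℝ, 0 ≤ x ∧ x ≤ X k D q ∧ 0 ≤ y ∧ y ≤ Y k D ∧ z = pt e x y 0}

/-- The recursive gadget. -/
def Gad (k D : ℕ) : ℕ → ℕ → Set E
  | 0, q => rect e k D q
  | _ + 1, 0 => rect e k D 0
  | p + 1, q + 1 =>
      (⋃ i : IR k D (q + 1), place (sR k D) (oR e k D (q + 1) i) '' Gad k D p (Qn k D)) ∪
      (⋃ i : IC k D (q + 1), place (sC k D) (oC e k D (q + 1) i) '' Gad k D (p + 1) q)
termination_by p q => (p, q)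

section
variable {k D : ℕ} (hD : 1 ≤ D)
include hD

lemma M_eq : (M k D : ℝ) * t k D = 1 := by
  have := M_pos (k := k) hD
  simp only [t]; field_simp

lemma My_ge_M : M k D ≤ My k D := by
  have hd : 1 ≤ D ^ 2 := Nat.one_le_pow _ _ hD
  have hg : 1 ≤ G k D ^ 3 := Nat.one_le_pow _ _ (G_pos k D)
  have hm : M k D ≤ M k D ^ 2 := Nat.le_self_pow (by norm_num) _
  simp only [My]
  calc M k D = 1 * 1 * 1 * M k D := by ring
    _ ≤ 128 * D ^ 2 * G k D ^ 3 * M k D ^ 2 := by gcongr <;> omega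

lemma Y_ge_M : M k D ≤ Y k D :=
  (My_ge_M hD).trans (Nat.le_mul_of_pos_right _ (G_pos k D))

lemma Y_ge_two : (2 : ℝ) ≤ Y k D := by
  have h1 := Y_ge_M (k := k) hD
  have h2 : 256 ≤ M k D := by simp only [M]; omega
  have : 2 ≤ Y k D := by omega
  exact_mod_cast this

lemma Ypos' : (0 : ℝ) < Y k D := by have := Y_pos (k := k) hD; exact_mod_cast this

lemma Xpos' (q : ℕ) : (0 : ℝ) < X k D q := by have := X_pos (k := k) hD q; exact_mod_cast this

lemma Wpos' (q : ℕ) : (0 : ℝ) < W k D q := by have := W_pos (k := k) hD q; exact_mod_cast this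

lemma W_one_le (q : ℕ) : (1 : ℝ) ≤ W k D q := by
  have := W_pos (k := k) hD q; exact_mod_cast this

lemma sC_pos : 0 < sC k D := by have := Ypos' (k := k) hD; simp only [sC]; positivity

lemma sR_pos : 0 < sR k D := by
  have := Xpos' (k := k) hD (Qn k D); have := t_pos (k := k) hD
  simp only [sR]; positivity

lemma sC_le_t : sC k D ≤ t k D := by
  have h : (M k D : ℝ) ≤ Y k D := by exact_mod_cast Y_ge_M hD
  have hM : (0 : ℝ) < M k D := by exact_mod_cast M_pos hD
  simp only [sC, t]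
  exact one_div_le_one_div_of_le hM h

lemma sR_le_sC : sR k D ≤ sC k D := by
  have hY := Ypos' (k := k) hD
  have hX := Xpos' (k := k) hD (Qn k D)
  have hle : (Y k D : ℝ) ≤ X k D (Qn k D) := by
    have := Nat.le_mul_of_pos_right (Y k D) (W_pos (k := k) hD (Qn k D + 1))
    exact_mod_cast this
  have ht : t k D ≤ 1 := (t_le hD).trans (by norm_num)
  simp only [sR, sC]
  calc t k D / (X k D (Qn k D) : ℝ) ≤ 1 / (X k D (Qn k D) : ℝ) := by gcongr
    _ ≤ 1 / (Y k D : ℝ) := one_div_le_one_div_of_le hY hle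

lemma hR_le : (Y k D : ℝ) * sR k D ≤ t k D := by
  have hY := Ypos' (k := k) hD
  have hX := Xpos' (k := k) hD (Qn k D)
  have hle : (Y k D : ℝ) ≤ X k D (Qn k D) := by
    have := Nat.le_mul_of_pos_right (Y k D) (W_pos (k := k) hD (Qn k D + 1))
    exact_mod_cast this
  have ht := t_pos (k := k) hD
  simp only [sR]
  rw [mul_div_assoc', div_le_iff₀ hX]
  nlinarith

lemma sR_mul_X : sR k D * X k D (Qn k D) = t k D := by
  have hX := Xpos' (k := k) hD (Qn k D)
  simp only [sR]; field_simp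

lemma sC_mul_X (q : ℕ) : sC k D * X k D q = W k D (q + 1) := by
  have hY := Ypos' (k := k) hD
  simp only [sC, X]; push_cast; field_simp

lemma sC_mul_Y : sC k D * Y k D = 1 := by
  have hY := Ypos' (k := k) hD
  simp only [sC]; field_simp

lemma yR_nonneg (n : ℕ) : 0 ≤ yR k D n := by
  simp only [yR]
  split
  · positivity
  · have h1 := hR_le (k := k) hD
    have h2 := t_le (k := k) hD
    have h3 := Y_ge_two (k := k) hD
    linarith

lemma yR_top (n : ℕ) : yR k D n + (Y k D : ℝ) * sR k D ≤ Y k D := by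
  simp only [yR]
  split
  · rename_i h
    have h1 : (n : ℝ) + 1 ≤ Y k D := by exact_mod_cast h
    have h2 := hR_le (k := k) hD
    have h3 := t_le (k := k) hD
    linarith
  · linarith

lemma npc_mul_t (q : ℕ) : (npc k D q : ℝ) * t k D = X k D q := by
  have := M_eq (k := k) hD
  simp only [npc]; push_cast
  rw [mul_assoc, this, mul_one]

end

lemma exists_piece {P : ℕ} (hP : 0 < P) {h x : ℝ} (hh : 0 < h) (hx0 : 0 ≤ x)
    (hx : x ≤ (P : ℝ) * h) : ∃ i : Fin P, ((i : ℕ) : ℝ) * h ≤ x ∧ x ≤ ((i : ℕ) : ℝ) * h + h := by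
  have hfl : (⌊x / h⌋₊ : ℝ) ≤ x / h := Nat.floor_le (by positivity)
  have hfl' : x / h < ⌊x / h⌋₊ + 1 := Nat.lt_floor_add_one _
  by_cases hlt : ⌊x / h⌋₊ < P
  · refine ⟨⟨_, hlt⟩, ?_, ?_⟩
    · calc (⌊x / h⌋₊ : ℝ) * h ≤ x / h * h := by gcongr
        _ = x := by field_simp
    · have : x / h * h < (⌊x / h⌋₊ + 1 : ℝ) * h := mul_lt_mul_of_pos_right hfl' hh
      rw [div_mul_cancel₀ _ hh.ne'] at this
      simp only at *
      linarith
  · refine ⟨⟨P - 1, by omega⟩, ?_, ?_⟩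
    · have h1 : (P : ℝ) ≤ x / h := le_trans (by exact_mod_cast not_lt.mp hlt) hfl
      have h2 : (P : ℝ) * h ≤ x := by rwa [le_div_iff₀ hh] at h1
      have : (((P - 1 : ℕ)) : ℝ) ≤ P := by exact_mod_cast Nat.sub_le _ _
      calc (((P - 1 : ℕ)) : ℝ) * h ≤ P * h := by gcongr
        _ ≤ x := h2
    · have : (((P - 1 : ℕ)) : ℝ) + 1 = P := by exact_mod_cast Nat.sub_add_cancel hP
      calc x ≤ (P : ℝ) * h := hx
        _ = (((P - 1 : ℕ)) : ℝ) * h + h := by rw [← this]; ring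

section
variable {k D : ℕ} (hD : 1 ≤ D) (he : Orthonormal ℝ e)
include hD he

lemma norm_offR (s : Fin 3) (n : ℕ) : ‖offR e k D s n‖ ≤ 1 / 128 := by
  have ht := t_pos (k := k) hD
  have hs : |sgR s| ≤ 1 := by fin_cases s <;> simp [sgR]
  rw [offR, norm_smul, norm_vN e he, Real.norm_eq_abs, abs_mul, abs_of_pos ht]
  calc |sgR s| * t k D * sN k D ≤ 1 * t k D * sN k D := by gcongr
    _ ≤ 1 / 128 := by
      simp only [t, M]; push_cast
      rw [one_mul, div_mul_eq_mul_div, div_le_iff₀ (by positivity)]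
      nlinarith [sq_nonneg ((sN k D : ℝ) - 1)]

lemma norm_offC (s : Fin 2) (c : ℕ) : ‖offC e k D s c‖ ≤ 1 / 128 := by
  have ht := t_pos (k := k) hD
  have hs : |sgC s| = 1 := by fin_cases s <;> simp [sgC]
  rw [offC, norm_smul, Real.norm_eq_abs, abs_mul, abs_of_pos ht, hs, one_mul]
  have h1 : ‖vN e k D c + e 2‖ ≤ sN k D + 1 := by
    refine (norm_add_le _ _).trans ?_
    rw [norm_vN e he, he.1]
  calc t k D * ‖vN e k D c + e 2‖ ≤ t k D * (sN k D + 1) := by gcongr
    _ ≤ 1 / 128 := by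
      simp only [t, M]; push_cast
      rw [div_mul_eq_mul_div, div_le_iff₀ (by positivity)]
      nlinarith [sq_nonneg ((sN k D : ℝ) - 1)]

lemma gad_bound : ∀ p q, ∀ z ∈ Gad e k D p q, ∃ x y : ℝ, ∃ u : E,
    0 ≤ x ∧ x ≤ X k D q ∧ 0 ≤ y ∧ y ≤ Y k D ∧ ⟪e 0, u⟫ = 0 ∧ ⟪e 1, u⟫ = 0 ∧ ‖u‖ ≤ 1 / 64 ∧
    z = pt e x y u := by
  intro p q
  induction p, q using Gad.induct k D with
  | case1 q =>
    intro z hz
    rw [Gad] at hz
    obtain ⟨x, y, h1, h2, h3, h4, rfl⟩ := hz
    exact ⟨x, y, 0, h1, h2, h3, h4, by simp, by simp, by simp, rfl⟩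
  | case2 p =>
    intro z hz
    rw [Gad] at hz
    obtain ⟨x, y, h1, h2, h3, h4, rfl⟩ := hz
    exact ⟨x, y, 0, h1, h2, h3, h4, by simp, by simp, by simp, rfl⟩
  | case3 p q ih1 ih2 =>
    intro z hz
    rw [Gad] at hz
    simp only [Set.mem_union, Set.mem_iUnion, Set.mem_image] at hz
    rcases hz with ⟨⟨i, n, s⟩, w, hw, rfl⟩ | ⟨⟨c, n, s⟩, w, hw, rfl⟩
    · obtain ⟨x, y, u, h1, h2, h3, h4, h5, h6, h7, rfl⟩ := ih1 w hw
      refine ⟨_, _, _, ?_, ?_, ?_, ?_, ?_, ?_, ?_, place_pt e _ _ _ _ _ _ _⟩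
      · have := sR_pos (k := k) hD; have := t_pos (k := k) hD; positivity
      · have hi : ((i : ℕ) : ℝ) + 1 ≤ npc k D (q + 1) := by exact_mod_cast i.2
        have ht := t_pos (k := k) hD
        rw [← npc_mul_t hD]
        calc _ ≤ ((i : ℕ) : ℝ) * t k D + sR k D * X k D (Qn k D) := by
              have := sR_pos (k := k) hD
              gcongr
          _ = (((i : ℕ) : ℝ) + 1) * t k D := by rw [sR_mul_X hD]; ring
          _ ≤ _ := by gcongr
      · have := yR_nonneg (k := k) hD n; have := sR_pos (k := k) hD; positivity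
      · have := yR_top (k := k) hD n
        have h : sR k D * y ≤ (Y k D : ℝ) * sR k D := by
          rw [mul_comm (Y k D : ℝ)]
          exact mul_le_mul_of_nonneg_left h4 (sR_pos hD).le
        dsimp only
        linarith
      · simp [inner_add_right, real_inner_smul_right, h5, inner_offR e he k D s n (show 0 < 3 by omega)]
      · simp [inner_add_right, real_inner_smul_right, h6, inner_offR e he k D s n (show 1 < 3 by omega)]
      · refine (norm_add_le _ _).trans ?_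
        rw [norm_smul, Real.norm_eq_abs, abs_of_pos (sR_pos hD)]
        have := norm_offR (k := k) e hD he s n
        have h : sR k D ≤ 1 / 256 := (sR_le_sC hD).trans ((sC_le_t hD).trans (t_le hD))
        have : sR k D * ‖u‖ ≤ 1 / 256 * (1 / 64) :=
          mul_le_mul h h7 (norm_nonneg _) (by norm_num)
        linarith
    · obtain ⟨x, y, u, h1, h2, h3, h4, h5, h6, h7, rfl⟩ := ih2 w hw
      refine ⟨_, _, _, ?_, ?_, ?_, ?_, ?_, ?_, ?_, place_pt e _ _ _ _ _ _ _⟩
      · have := sC_pos (k := k) hD; have := Wpos' (k := k) hD (q + 1); positivity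
      · have hc : ((c : ℕ) : ℝ) + 1 ≤ ncol k D (q + 1) := by exact_mod_cast c.2
        have hX : (ncol k D (q + 1) : ℝ) * W k D (q + 1) = X k D (q + 1) := by
          exact_mod_cast ncol_mul_W k D (q + 1)
        rw [← hX]
        calc _ ≤ ((c : ℕ) : ℝ) * W k D (q + 1) + sC k D * X k D q := by
              have := sC_pos (k := k) hD
              gcongr
          _ = (((c : ℕ) : ℝ) + 1) * W k D (q + 1) := by rw [sC_mul_X hD]; ring
          _ ≤ _ := by gcongr
      · have := sC_pos (k := k) hD; positivity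
      · have hn : ((n : ℕ) : ℝ) + 1 ≤ Y k D := by exact_mod_cast n.2
        have h : sC k D * y ≤ 1 := by
          rw [← sC_mul_Y (k := k) hD]
          exact mul_le_mul_of_nonneg_left h4 (sC_pos hD).le
        dsimp only
        linarith
      · simp [inner_add_right, real_inner_smul_right, h5, inner_offC e he k D s c (show 0 < 2 by omega)]
      · simp [inner_add_right, real_inner_smul_right, h6, inner_offC e he k D s c (show 1 < 2 by omega)]
      · refine (norm_add_le _ _).trans ?_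
        rw [norm_smul, Real.norm_eq_abs, abs_of_pos (sC_pos hD)]
        have := norm_offC (k := k) e hD he s c
        have h : sC k D ≤ 1 / 256 := (sC_le_t hD).trans (t_le hD)
        have : sC k D * ‖u‖ ≤ 1 / 256 * (1 / 64) :=
          mul_le_mul h h7 (norm_nonneg _) (by norm_num)
        linarith

omit he in
lemma gad_edges : ∀ p q, ∀ x : ℝ, 0 ≤ x → x ≤ X k D q →
    pt e x 0 0 ∈ Gad e k D p q ∧ pt e x (Y k D) 0 ∈ Gad e k D p q := by
  intro p q
  induction p, q using Gad.induct k D with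
  | case1 q =>
    intro x h0 h1
    rw [Gad]
    exact ⟨⟨x, 0, h0, h1, le_rfl, (Ypos' hD).le, rfl⟩, ⟨x, _, h0, h1, (Ypos' hD).le, le_rfl, rfl⟩⟩
  | case2 p =>
    intro x h0 h1
    rw [Gad]
    exact ⟨⟨x, 0, h0, h1, le_rfl, (Ypos' hD).le, rfl⟩, ⟨x, _, h0, h1, (Ypos' hD).le, le_rfl, rfl⟩⟩
  | case3 p q ih1 ih2 =>
    intro x h0 h1
    have hP : 0 < npc k D (q + 1) := Nat.mul_pos (X_pos hD _) (M_pos hD)
    obtain ⟨i, hi1, hi2⟩ := exists_piece hP (t_pos (k := k) hD) h0
      (by rw [npc_mul_t hD]; exact h1)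
    have hs := sR_pos (k := k) hD
    set x' := (x - (i : ℕ) * t k D) / sR k D with hx'
    have hx0 : 0 ≤ x' := div_nonneg (by linarith) hs.le
    have hx1 : x' ≤ X k D (Qn k D) := by
      rw [hx', div_le_iff₀ hs, mul_comm _ (sR k D), sR_mul_X hD]; linarith
    have hxx : ((i : ℕ) : ℝ) * t k D + sR k D * x' = x := by
      rw [hx']; field_simp; ring
    have hY := Y_pos (k := k) hD
    rw [Gad]
    constructor <;> refine Or.inl ?_ <;> simp only [Set.mem_iUnion, Set.mem_image]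
    · refine ⟨(i, ⟨0, by omega⟩, 0), _, (ih1 x' hx0 hx1).1, ?_⟩
      rw [oR, place_pt, hxx]
      simp [yR, hY, offR, sgR]
    · refine ⟨(i, ⟨Y k D, by omega⟩, 0), _, (ih1 x' hx0 hx1).2, ?_⟩
      rw [oR, place_pt, hxx]
      simp [yR, offR, sgR, mul_comm]

omit he in
lemma row_mem (p q : ℕ) (n : Fin (Y k D + 1)) (s : Fin 3) {x : ℝ} (h0 : 0 ≤ x)
    (h1 : x ≤ X k D (q + 1)) :
    pt e x (yR k D n) (offR e k D s n) ∈ Gad e k D (p + 1) (q + 1) := by
  have hP : 0 < npc k D (q + 1) := Nat.mul_pos (X_pos hD _) (M_pos hD)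
  obtain ⟨i, hi1, hi2⟩ := exists_piece hP (t_pos (k := k) hD) h0
    (by rw [npc_mul_t hD]; exact h1)
  have hs := sR_pos (k := k) hD
  set x' := (x - (i : ℕ) * t k D) / sR k D with hx'
  have hx0 : 0 ≤ x' := div_nonneg (by linarith) hs.le
  have hx1 : x' ≤ X k D (Qn k D) := by
    rw [hx', div_le_iff₀ hs, mul_comm _ (sR k D), sR_mul_X hD]; linarith
  have hxx : ((i : ℕ) : ℝ) * t k D + sR k D * x' = x := by
    rw [hx']; field_simp; ring
  rw [Gad]
  refine Or.inl ?_
  simp only [Set.mem_iUnion, Set.mem_image]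
  refine ⟨(i, n, s), _, (gad_edges e hD p (Qn k D) x' hx0 hx1).1, ?_⟩
  rw [oR, place_pt, hxx]
  simp

omit he in
lemma col_mem (p q : ℕ) (c : Fin (ncol k D (q + 1))) (n : Fin (Y k D)) (s : Fin 2) {r : ℝ}
    (h0 : 0 ≤ r) (h1 : r ≤ W k D (q + 1)) :
    pt e ((c : ℕ) * (W k D (q + 1) : ℝ) + r) (n : ℕ) (offC e k D s c) ∈ Gad e k D (p + 1) (q + 1) ∧
    pt e ((c : ℕ) * (W k D (q + 1) : ℝ) + r) ((n : ℕ) + 1) (offC e k D s c)
      ∈ Gad e k D (p + 1) (q + 1) := by
  have hY := Ypos' (k := k) hD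
  have hr0 : 0 ≤ r * Y k D := by positivity
  have hr1 : r * Y k D ≤ X k D q := by
    simp only [X]; push_cast; rw [mul_comm (Y k D : ℝ)]; gcongr
  have hrr : sC k D * (r * Y k D) = r := by
    rw [mul_left_comm, sC_mul_Y hD, mul_one]
  rw [Gad]
  constructor <;> refine Or.inr ?_ <;> simp only [Set.mem_iUnion, Set.mem_image]
  · refine ⟨(c, n, s), _, (gad_edges e hD (p + 1) q _ hr0 hr1).1, ?_⟩
    rw [oC, place_pt, hrr]
    simp
  · refine ⟨(c, n, s), _, (gad_edges e hD (p + 1) q _ hr0 hr1).2, ?_⟩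
    rw [oC, place_pt, hrr, sC_mul_Y hD]
    simp

end

end

end Vale.Agent.P208
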