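import Mathlib
import Vale.Agent.P208.Gadget

namespace Vale.Agent.P208

open scoped RealInnerProductSpace

noncomputable section

/-- Clamping to the window of half-width `2 r` around `c`. -/
def clampW (c r v : ℝ) : ℝ := max (c - 2 * r) (min (c + 2 * r) v)

/-- Length of the part of `[a, b]` inside the window. -/
def wlen (c r a b : ℝ) : ℝ := clampW c r b - clampW c r a

lemma clampW_mono (c r : ℝ) {a b : ℝ} (h : a ≤ b) : clampW c r a ≤ clampW c r b :=
  max_le_max le_rfl (min_le_min le_rfl h)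

lemma wlen_nonneg (c r : ℝ) {a b : ℝ} (h : a ≤ b) : 0 ≤ wlen c r a b :=
  sub_nonneg.mpr (clampW_mono c r h)

lemma wlen_mono (c r : ℝ) {a a' b b' : ℝ} (ha : a ≤ a') (hb : b' ≤ b) :
    wlen c r a' b' ≤ wlen c r a b := by
  have h1 := clampW_mono c r ha
  have h2 := clampW_mono c r hb
  simp only [wlen]; linarith

lemma wlen_ge {c r a b v : ℝ} (hr : 0 ≤ r) (hav : a ≤ v) (hvb : v ≤ b) (hv : |v - c| ≤ r)
    (hab : r ≤ b - a) : r ≤ wlen c r a b := by
  have h := abs_le.mp hv
  simp only [wlen, clampW]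
  rcases max_cases (c - 2 * r) (min (c + 2 * r) b) with h1 | h1 <;>
  rcases max_cases (c - 2 * r) (min (c + 2 * r) a) with h2 | h2 <;>
  rcases min_cases (c + 2 * r) b with h3 | h3 <;>
  rcases min_cases (c + 2 * r) a with h4 | h4 <;> linarith [h.1, h.2, h1.1, h1.2, h2.1, h2.2, h3.1, h3.2, h4.1, h4.2]

lemma wlen_scale (c r a L : ℝ) {s : ℝ} (hs : 0 < s) :
    wlen c r a (a + s * L) = s * wlen ((c - a) / s) (r / s) 0 L := by
  have key : ∀ v, clampW c r (a + s * v) = a + s * clampW ((c - a) / s) (r / s) v := by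
    intro v
    simp only [clampW]
    rw [mul_max_of_nonneg _ _ hs.le, mul_min_of_nonneg _ _ hs.le, ← max_add_add_left,
      ← min_add_add_left]
    have e1 : a + s * ((c - a) / s - 2 * (r / s)) = c - 2 * r := by field_simp; ring
    have e2 : a + s * ((c - a) / s + 2 * (r / s)) = c + 2 * r := by field_simp; ring
    rw [e1, e2]
  have h0 := key 0
  rw [mul_zero, add_zero] at h0
  simp only [wlen, key, h0]
  ring

lemma wlen_sum (c r : ℝ) (P : ℕ) (h : ℝ) :
    ∑ i : Fin P, wlen c r ((i : ℕ) * h) (((i : ℕ) : ℝ) * h + h) = wlen c r 0 (P * h) := by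
  rw [Fin.sum_univ_eq_sum_range (fun i : ℕ => wlen c r (i * h) ((i : ℝ) * h + h))]
  have hg := Finset.sum_range_sub (fun i : ℕ => clampW c r (i * h)) P
  simp only [wlen]
  calc _ = ∑ i ∈ Finset.range P, (clampW c r ((i + 1 : ℕ) * h) - clampW c r (i * h)) := by
        refine Finset.sum_congr rfl fun i _ => ?_
        push_cast; ring_nf
    _ = _ := by rw [hg]; simp

variable {E : Type*} [NormedAddCommGroup E] [InnerProductSpace ℝ E]

/-- The part of a set inside a ball is covered by `n` balls of half radius. -/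
def CovAt (S : Set E) (ctr : E) (r : ℝ) (n : ℕ) : Prop :=
  ∃ F : Finset E, F.card ≤ n ∧ S ∩ Metric.closedBall ctr r ⊆ ⋃ c ∈ F, Metric.closedBall c (r / 2)

lemma CovAt.mono {S : Set E} {ctr : E} {r : ℝ} {n m : ℕ} (h : CovAt S ctr r n) (hnm : n ≤ m) :
    CovAt S ctr r m := let ⟨F, h1, h2⟩ := h; ⟨F, h1.trans hnm, h2⟩

lemma CovAt.biUnion {ι : Type*} (T : Finset ι) {A : Set E} (f : ι → Set E) {ctr : E} {r : ℝ}
    (g : ι → ℕ) (hA : A ∩ Metric.closedBall ctr r ⊆ ⋃ i ∈ T, f i)
    (h : ∀ i ∈ T, CovAt (f i) ctr r (g i)) : CovAt A ctr r (∑ i ∈ T, g i) := by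
  classical
  choose F hF1 hF2 using h
  refine ⟨T.attach.biUnion (fun i => F i.1 i.2), ?_, ?_⟩
  · refine Finset.card_biUnion_le.trans ?_
    rw [← Finset.sum_attach T g]
    exact Finset.sum_le_sum fun i _ => hF1 i.1 i.2
  · intro z hz
    have := hA hz
    simp only [Set.mem_iUnion] at this
    obtain ⟨i, hi, hzi⟩ := this
    have := hF2 i hi ⟨hzi, hz.2⟩
    simp only [Set.mem_iUnion] at this ⊢
    obtain ⟨c, hc, hzc⟩ := this
    exact ⟨c, Finset.mem_biUnion.mpr ⟨⟨i, hi⟩, Finset.mem_attach _ _, hc⟩, hzc⟩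

lemma CovAt.place {S : Set E} {ctr : E} {r s : ℝ} {o : E} {n : ℕ} (hs : 0 < s)
    (h : CovAt S (s⁻¹ • (ctr - o)) (r / s) n) : CovAt (P208.place s o '' S) ctr r n := by
  classical
  obtain ⟨F, hF1, hF2⟩ := h
  refine ⟨F.image (P208.place s o), Finset.card_image_le.trans hF1, ?_⟩
  have hd : ∀ z z', dist (P208.place s o z) (P208.place s o z') = s * dist z z' := fun z z' => by
    rw [dist_eq_norm, dist_eq_norm, place_sub, norm_smul, Real.norm_eq_abs, abs_of_pos hs]
  have hctr : P208.place s o (s⁻¹ • (ctr - o)) = ctr := by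
    simp [P208.place, smul_smul, hs.ne']
  rintro _ ⟨⟨w, hw, rfl⟩, hwb⟩
  have hwb' : w ∈ Metric.closedBall (s⁻¹ • (ctr - o)) (r / s) := by
    rw [Metric.mem_closedBall, le_div_iff₀' hs, ← hd, hctr]
    exact hwb
  have := hF2 ⟨hw, hwb'⟩
  simp only [Set.mem_iUnion] at this ⊢
  obtain ⟨c, hc, hwc⟩ := this
  refine ⟨P208.place s o c, Finset.mem_image_of_mem _ hc, ?_⟩
  rw [Metric.mem_closedBall] at hwc ⊢
  rw [hd]
  calc s * dist w c ≤ s * (r / s / 2) := by gcongr
    _ = r / 2 := by field_simp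

variable (e : ℕ → E) (he : Orthonormal ℝ e)
include he

lemma abs_coord_le (j : ℕ) (z ctr : E) {r : ℝ} (h : z ∈ Metric.closedBall ctr r) :
    |⟪e j, z⟫ - ⟪e j, ctr⟫| ≤ r := by
  rw [← inner_sub_right]
  refine (abs_real_inner_le_norm _ _).trans ?_
  rw [he.1, one_mul, ← dist_eq_norm]
  exact h

/-- A set near finitely many horizontal planes is covered by few balls. -/
lemma cov_flat {A : Set E} {ctr : E} {r : ℝ} (hr : 0 < r) (O : Finset E)
    (h : ∀ z ∈ A ∩ Metric.closedBall ctr r, ∃ o ∈ O, ∃ x y : ℝ, ∃ u : E,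
      ⟪e 0, u⟫ = 0 ∧ ⟪e 1, u⟫ = 0 ∧ ‖u - o‖ ≤ r / 8 ∧ z = pt e x y u) :
    CovAt A ctr r (81 * O.card) := by
  classical
  set I := Finset.Icc (-4 : ℤ) 4 with hI
  refine ⟨((I ×ˢ I) ×ˢ O).image (fun p => pt e (⟪e 0, ctr⟫ + (p.1.1 : ℝ) * (r / 4))
    (⟪e 1, ctr⟫ + (p.1.2 : ℝ) * (r / 4)) p.2), ?_, ?_⟩
  · refine Finset.card_image_le.trans ?_
    simp [Finset.card_product, hI]
  · intro z hz
    obtain ⟨o, ho, x, y, u, h0, h1, hu, rfl⟩ := h z hz
    have hx := abs_coord_le e he 0 _ _ hz.2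
    have hy := abs_coord_le e he 1 _ _ hz.2
    rw [xc_pt e he x y h0] at hx
    rw [yc_pt e he x y h1] at hy
    have key : ∀ a c : ℝ, |a - c| ≤ r → ∃ i ∈ I, |a - (c + (i : ℝ) * (r / 4))| ≤ r / 8 := by
      intro a c hac
      refine ⟨round ((a - c) / (r / 4)), ?_, ?_⟩
      · have h1 := abs_sub_round ((a - c) / (r / 4))
        have h2 : |(a - c) / (r / 4)| ≤ 4 := by
          rw [abs_div, abs_of_pos (by positivity : (0:ℝ) < r / 4), div_le_iff₀ (by positivity)]
          linarith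
        have h3 := abs_le.mp h1
        have h4 := abs_le.mp h2
        rw [hI, Finset.mem_Icc]
        constructor
        · have : ((-5 : ℤ) : ℝ) < (round ((a - c) / (r / 4)) : ℤ) := by push_cast; linarith
          have := Int.cast_lt.mp this; omega
        · have : ((round ((a - c) / (r / 4)) : ℤ) : ℝ) < ((5 : ℤ) : ℝ) := by push_cast; linarith
          have := Int.cast_lt.mp this; omega
      · have h1 := abs_sub_round ((a - c) / (r / 4))
        have : a - (c + (round ((a - c) / (r / 4)) : ℝ) * (r / 4))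
            = ((a - c) / (r / 4) - round ((a - c) / (r / 4))) * (r / 4) := by
          field_simp; ring
        rw [this, abs_mul, abs_of_pos (by positivity : (0:ℝ) < r / 4)]
        calc _ ≤ 1 / 2 * (r / 4) := by gcongr
          _ = r / 8 := by ring
    obtain ⟨i, hi, hi'⟩ := key x _ hx
    obtain ⟨j, hj, hj'⟩ := key y _ hy
    simp only [Set.mem_iUnion]
    refine ⟨_, Finset.mem_image_of_mem _
      (show ((i, j), o) ∈ (I ×ˢ I) ×ˢ O by simp [hi, hj, ho]), ?_⟩
    rw [Metric.mem_closedBall, dist_eq_norm, pt_sub, pt]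
    refine (norm_add₃_le).trans ?_
    rw [norm_smul, norm_smul, he.1, he.1, mul_one, mul_one, Real.norm_eq_abs, Real.norm_eq_abs]
    linarith

/-- Two points of a ball have close offsets. -/
lemma off_close {ctr : E} {r : ℝ} {x y x' y' : ℝ} {u u' : E}
    (h0 : ⟪e 0, u⟫ = 0) (h1 : ⟪e 1, u⟫ = 0) (h0' : ⟪e 0, u'⟫ = 0) (h1' : ⟪e 1, u'⟫ = 0)
    (hz : pt e x y u ∈ Metric.closedBall ctr r) (hz' : pt e x' y' u' ∈ Metric.closedBall ctr r) :
    ‖u - u'‖ ≤ 6 * r := by
  have hx := abs_coord_le e he 0 _ _ hz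
  have hy := abs_coord_le e he 1 _ _ hz
  have hx' := abs_coord_le e he 0 _ _ hz'
  have hy' := abs_coord_le e he 1 _ _ hz'
  rw [xc_pt e he x y h0] at hx
  rw [yc_pt e he x y h1] at hy
  rw [xc_pt e he x' y' h0'] at hx'
  rw [yc_pt e he x' y' h1'] at hy'
  have hd : ‖pt e x y u - pt e x' y' u'‖ ≤ 2 * r := by
    rw [← dist_eq_norm]
    have := dist_triangle_right (pt e x y u) (pt e x' y' u') ctr
    rw [Metric.mem_closedBall] at hz hz'
    linarith
  have hu : u - u' = (pt e x y u - pt e x' y' u') + (-((x - x') • e 0)) + (-((y - y') • e 1)) := by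
    simp only [pt]; module
  rw [hu]
  refine norm_add₃_le.trans ?_
  rw [norm_neg, norm_neg, norm_smul, norm_smul, he.1, he.1, mul_one, mul_one, Real.norm_eq_abs,
    Real.norm_eq_abs]
  have := abs_sub_le x ⟪e 0, ctr⟫ x'
  have := abs_sub_le y ⟪e 1, ctr⟫ y'
  rw [abs_sub_comm ⟪e 0, ctr⟫ x'] at *
  rw [abs_sub_comm ⟪e 1, ctr⟫ y'] at *
  linarith

section gadget
variable {k D : ℕ} (hD : 1 ≤ D)
include hD

/-- Scale of a child. -/
def chS {k D q : ℕ} : IR k D q ⊕ IC k D q → ℝ := Sum.elim (fun _ => sR k D) (fun _ => sC k D)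

/-- Offset of a child. -/
def chU {k D q : ℕ} (e : ℕ → E) : IR k D q ⊕ IC k D q → E :=
  Sum.elim (fun i => offR e k D i.2.2 i.2.1) (fun i => offC e k D i.2.2 i.1)

omit he in
lemma one_le_X (q : ℕ) : (1 : ℝ) ≤ X k D q := by
  have := X_pos (k := k) hD q; exact_mod_cast this

omit he in
lemma yR_sep {n n' : ℕ} (hn : n ≤ Y k D) (hn' : n' ≤ Y k D) (h : n < n') :
    1 - t k D ≤ yR k D n' - yR k D n := by
  have hlt : n < Y k D := lt_of_lt_of_le h hn'
  have h1 : (n : ℝ) + 1 ≤ n' := by exact_mod_cast h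
  have h2 := hR_le (k := k) hD
  have h3 := t_pos (k := k) hD
  simp only [yR, hlt, if_true]
  split
  · linarith
  · have h4 : (n' : ℝ) ≤ Y k D := by exact_mod_cast hn'
    linarith

omit he in
lemma sum_area_R {q : ℕ} (cx cy r : ℝ) (S : Finset (IR k D q))
    (hinj : ∀ a ∈ S, ∀ b ∈ S, a.1 = b.1 → a = b) :
    ∑ i ∈ S, wlen cx r (((i.1 : ℕ) : ℝ) * t k D) (((i.1 : ℕ) : ℝ) * t k D + t k D) *
        wlen cy r (yR k D i.2.1) (yR k D i.2.1 + Y k D * sR k D)
      ≤ wlen cx r 0 (X k D q) * wlen cy r 0 (Y k D) := by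
  classical
  have ht := t_pos (k := k) hD
  calc _ ≤ ∑ i ∈ S, wlen cx r (((i.1 : ℕ) : ℝ) * t k D)
        (((i.1 : ℕ) : ℝ) * t k D + t k D) * wlen cy r 0 (Y k D) := by
        refine Finset.sum_le_sum fun i _ => ?_
        exact mul_le_mul_of_nonneg_left
          (wlen_mono _ _ (yR_nonneg hD _) (yR_top hD _)) (wlen_nonneg _ _ (by linarith))
    _ = (∑ a ∈ (S.image Prod.fst : Finset (Fin (npc k D q))), wlen cx r (((a : ℕ) : ℝ) * t k D)
          (((a : ℕ) : ℝ) * t k D + t k D)) * wlen cy r 0 (Y k D) := by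
        rw [Finset.sum_mul, Finset.sum_image]
        intro a ha b hb hab
        exact hinj a ha b hb hab
    _ ≤ (∑ a : Fin (npc k D q), wlen cx r (((a : ℕ) : ℝ) * t k D) (((a : ℕ) : ℝ) * t k D + t k D)) *
          wlen cy r 0 (Y k D) := by
        refine mul_le_mul_of_nonneg_right ?_ (wlen_nonneg _ _ (Nat.cast_nonneg _))
        exact Finset.sum_le_sum_of_subset_of_nonneg (Finset.subset_univ _)
          (fun a _ _ => wlen_nonneg _ _ (by linarith))
    _ = _ := by rw [wlen_sum, npc_mul_t hD]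

omit he in
lemma sum_area_C {q : ℕ} (cx cy r : ℝ) (S : Finset (IC k D q))
    (hinj : ∀ a ∈ S, ∀ b ∈ S, a.1 = b.1 → a.2.1 = b.2.1 → a = b) :
    ∑ i ∈ S, wlen cx r (((i.1 : ℕ) : ℝ) * W k D q) (((i.1 : ℕ) : ℝ) * W k D q + W k D q) *
        wlen cy r ((i.2.1 : ℕ) : ℝ) (((i.2.1 : ℕ) : ℝ) + 1)
      ≤ wlen cx r 0 (X k D q) * wlen cy r 0 (Y k D) := by
  classical
  have hW := Wpos' (k := k) hD q
  let B : Fin (ncol k D q) × Fin (Y k D) → ℝ := fun a =>
    wlen cx r (((a.1 : ℕ) : ℝ) * W k D q) (((a.1 : ℕ) : ℝ) * W k D q + W k D q) *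
      wlen cy r ((a.2 : ℕ) : ℝ) (((a.2 : ℕ) : ℝ) + 1)
  calc _ = ∑ a ∈ S.image (fun i => (i.1, i.2.1)), B a := by
        rw [Finset.sum_image]
        intro a ha b hb hab
        simp only [Prod.mk.injEq] at hab
        exact hinj a ha b hb hab.1 hab.2
    _ ≤ ∑ a, B a := by
        refine Finset.sum_le_sum_of_subset_of_nonneg (Finset.subset_univ _) fun a _ _ => ?_
        exact mul_nonneg (wlen_nonneg _ _ (by linarith)) (wlen_nonneg _ _ (by linarith))
    _ = _ := by
        have h1 := wlen_sum cy r (Y k D) 1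
        simp only [mul_one] at h1
        have h2 := wlen_sum cx r (ncol k D q) (W k D q : ℝ)
        have h3 : (ncol k D q : ℝ) * W k D q = X k D q := by exact_mod_cast ncol_mul_W k D q
        rw [h3] at h2
        rw [← h1, ← h2, Fintype.sum_mul_sum, Fintype.sum_prod_type]

lemma scale_child {S : Set E} {ctr : E} {r s a b L H : ℝ} {u : E} (hs : 0 < s)
    (h0 : ⟪e 0, u⟫ = 0) (h1 : ⟪e 1, u⟫ = 0)
    (h : ∃ n : ℕ, (n : ℝ) * (r / s) ^ 2 ≤ 567 *
        (wlen ⟪e 0, s⁻¹ • (ctr - pt e a b u)⟫ (r / s) 0 L *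
          wlen ⟪e 1, s⁻¹ • (ctr - pt e a b u)⟫ (r / s) 0 H) ∧
      CovAt S (s⁻¹ • (ctr - pt e a b u)) (r / s) n) :
    ∃ n : ℕ, (n : ℝ) * r ^ 2 ≤ 567 *
        (wlen ⟪e 0, ctr⟫ r a (a + s * L) * wlen ⟪e 1, ctr⟫ r b (b + s * H)) ∧
      CovAt (place s (pt e a b u) '' S) ctr r n := by
  obtain ⟨n, hn, hc⟩ := h
  refine ⟨n, ?_, hc.place hs⟩
  have e0 : ⟪e 0, s⁻¹ • (ctr - pt e a b u)⟫ = (⟪e 0, ctr⟫ - a) / s := by
    rw [real_inner_smul_right, inner_sub_right, xc_pt e he _ _ h0]; ring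
  have e1 : ⟪e 1, s⁻¹ • (ctr - pt e a b u)⟫ = (⟪e 1, ctr⟫ - b) / s := by
    rw [real_inner_smul_right, inner_sub_right, yc_pt e he _ _ h1]; ring
  rw [e0, e1, div_pow, mul_div_assoc', div_le_iff₀ (by positivity)] at hn
  rw [wlen_scale _ _ _ _ hs, wlen_scale _ _ _ _ hs]
  refine hn.trans (le_of_eq ?_)
  ring

omit he in
/-- Visible area of a child. -/
def childArea (cx cy r : ℝ) {q : ℕ} : IR k D q ⊕ IC k D q → ℝ :=
  Sum.elim
    (fun i => wlen cx r (((i.1 : ℕ) : ℝ) * t k D) (((i.1 : ℕ) : ℝ) * t k D + t k D) *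
      wlen cy r (yR k D i.2.1) (yR k D i.2.1 + Y k D * sR k D))
    (fun i => wlen cx r (((i.1 : ℕ) : ℝ) * W k D q) (((i.1 : ℕ) : ℝ) * W k D q + W k D q) *
      wlen cy r ((i.2.1 : ℕ) : ℝ) (((i.2.1 : ℕ) : ℝ) + 1))

omit he in
lemma sum_childArea {q : ℕ} (cx cy r : ℝ) (T : Finset (IR k D q ⊕ IC k D q))
    (h : (T.toRight = ∅ ∧ ∀ a ∈ T.toLeft, ∀ b ∈ T.toLeft, a.1 = b.1 → a = b) ∨
      (T.toLeft = ∅ ∧ ∀ a ∈ T.toRight, ∀ b ∈ T.toRight, a.1 = b.1 → a.2.1 = b.2.1 → a = b)) :
    ∑ i ∈ T, childArea cx cy r i ≤ wlen cx r 0 (X k D q) * wlen cy r 0 (Y k D) := by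
  rw [← Finset.toLeft_disjSum_toRight (u := T), Finset.sum_disjSum]
  rcases h with ⟨h0, hi⟩ | ⟨h0, hi⟩
  · rw [h0, Finset.sum_empty, add_zero]
    exact sum_area_R hD cx cy r _ hi
  · rw [h0, Finset.sum_empty, zero_add]
    exact sum_area_C hD cx cy r _ hi

omit he in
lemma combine {ι : Type} (T : Finset ι) (A : ι → ℝ) (f : ι → Set E) {S : Set E} {ctr : E}
    {r B : ℝ} (hsub : S ∩ Metric.closedBall ctr r ⊆ ⋃ i ∈ T, f i)
    (hB : ∑ i ∈ T, A i ≤ B) (each : ∀ i ∈ T, ∃ n : ℕ, (n : ℝ) * r ^ 2 ≤ 567 * A i ∧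
      CovAt (f i) ctr r n) :
    ∃ n : ℕ, (n : ℝ) * r ^ 2 ≤ 567 * B ∧ CovAt S ctr r n := by
  choose! g hg1 hg2 using each
  refine ⟨∑ i ∈ T, g i, ?_, CovAt.biUnion T f g hsub hg2⟩
  rw [Nat.cast_sum, Finset.sum_mul]
  refine (Finset.sum_le_sum hg1).trans ?_
  rw [← Finset.mul_sum]
  exact mul_le_mul_of_nonneg_left hB (by norm_num)

lemma child_each {p q : ℕ} {ctr : E} {r : ℝ} (hr : 0 < r)
    (ih1 : ∀ (c : E) (ρ : ℝ), 0 < ρ → ρ ≤ 1 / 8 → ∃ n : ℕ,
      (n : ℝ) * ρ ^ 2 ≤ 567 * (wlen ⟪e 0, c⟫ ρ 0 (X k D (Qn k D)) * wlen ⟪e 1, c⟫ ρ 0 (Y k D)) ∧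
      CovAt (Gad e k D p (Qn k D)) c ρ n)
    (ih2 : ∀ (c : E) (ρ : ℝ), 0 < ρ → ρ ≤ 1 / 8 → ∃ n : ℕ,
      (n : ℝ) * ρ ^ 2 ≤ 567 * (wlen ⟪e 0, c⟫ ρ 0 (X k D q) * wlen ⟪e 1, c⟫ ρ 0 (Y k D)) ∧
      CovAt (Gad e k D (p + 1) q) c ρ n)
    (i : IR k D (q + 1) ⊕ IC k D (q + 1)) (hb : r < chS i / 8) :
    ∃ n : ℕ, (n : ℝ) * r ^ 2 ≤ 567 * childArea ⟪e 0, ctr⟫ ⟪e 1, ctr⟫ r i ∧
      CovAt (Sum.elim
        (fun i => place (sR k D) (oR e k D (q + 1) i) '' Gad e k D p (Qn k D))
        (fun i => place (sC k D) (oC e k D (q + 1) i) '' Gad e k D (p + 1) q) i) ctr r n := by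
  have hsR := sR_pos (k := k) hD
  have hsC := sC_pos (k := k) hD
  rcases i with i | i
  · simp only [chS, Sum.elim_inl] at hb
    obtain ⟨n, h1, h2⟩ := scale_child e he hD (a := ((i.1 : ℕ) : ℝ) * t k D)
      (b := yR k D i.2.1) (u := offR e k D i.2.2 i.2.1) hsR
      (inner_offR e he k D _ _ (by omega)) (inner_offR e he k D _ _ (by omega))
      (ih1 _ (r / sR k D) (by positivity) (by rw [div_le_iff₀ hsR]; linarith))
    rw [sR_mul_X hD, mul_comm (sR k D)] at h1
    exact ⟨n, h1, h2⟩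
  · simp only [chS, Sum.elim_inr] at hb
    obtain ⟨n, h1, h2⟩ := scale_child e he hD (a := ((i.1 : ℕ) : ℝ) * W k D (q + 1))
      (b := ((i.2.1 : ℕ) : ℝ)) (u := offC e k D i.2.2 i.1) hsC
      (inner_offC e he k D _ _ (by omega)) (inner_offC e he k D _ _ (by omega))
      (ih2 _ (r / sC k D) (by positivity) (by rw [div_le_iff₀ hsC]; linarith))
    rw [sC_mul_X hD, sC_mul_Y hD] at h1
    exact ⟨n, h1, h2⟩

lemma single_sheet {q : ℕ} (T : Finset (IR k D q ⊕ IC k D q)) (j : IR k D q ⊕ IC k D q) (hj : j ∈ T)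
    (one : ∀ i ∈ T, chU e i = chU e j)
    (rowU : ∀ i j : IR k D q, Sum.inl i ∈ T → Sum.inl j ∈ T → i.2.1 = j.2.1)
    (nomix : ∀ (i : IR k D q) (l : IC k D q), Sum.inl i ∈ T → Sum.inr l ∈ T → False) :
    (T.toRight = ∅ ∧ ∀ a ∈ T.toLeft, ∀ b ∈ T.toLeft, a.1 = b.1 → a = b) ∨
      (T.toLeft = ∅ ∧ ∀ a ∈ T.toRight, ∀ b ∈ T.toRight, a.1 = b.1 → a.2.1 = b.2.1 → a = b) := by
  have ht := t_pos (k := k) hD
  rcases j with j | j
  · have hR0 : T.toRight = ∅ := Finset.eq_empty_of_forall_notMem fun l hl =>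
      nomix j l hj (Finset.mem_toRight.mp hl)
    have hinj : ∀ i ∈ T.toLeft, i.2.1 = j.2.1 ∧ i.2.2 = j.2.2 := by
      intro i hi
      have hn := rowU i j (Finset.mem_toLeft.mp hi) hj
      refine ⟨hn, ?_⟩
      have h := one _ (Finset.mem_toLeft.mp hi)
      simp only [chU, Sum.elim_inl, hn, offR] at h
      have hv : vN e k D (j.2.1 : ℕ) ≠ 0 := by
        intro h0
        have := norm_vN e he k D (j.2.1 : ℕ)
        rw [h0, norm_zero] at this
        simp only [sN] at this; push_cast at this; linarith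
      have := smul_left_injective ℝ hv h
      have h3 : sgR i.2.2 = sgR j.2.2 := mul_right_cancel₀ ht.ne' this
      revert h3
      generalize i.2.2 = a
      generalize j.2.2 = b
      fin_cases a <;> fin_cases b <;> norm_num [sgR]
    exact Or.inl ⟨hR0, fun a ha b hb hab =>
      Prod.ext hab (Prod.ext ((hinj a ha).1.trans (hinj b hb).1.symm)
        ((hinj a ha).2.trans (hinj b hb).2.symm))⟩
  · have hL0 : T.toLeft = ∅ := Finset.eq_empty_of_forall_notMem fun l hl =>
      nomix l j (Finset.mem_toLeft.mp hl) hj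
    have hinj : ∀ i ∈ T.toRight, i.2.2 = j.2.2 := by
      intro i hi
      have h := congrArg (fun v => ⟪e 2, v⟫) (one _ (Finset.mem_toRight.mp hi))
      simp only [chU, Sum.elim_inr, inner_offC_two e he] at h
      have h3 : sgC i.2.2 = sgC j.2.2 := mul_right_cancel₀ ht.ne' h
      revert h3
      generalize i.2.2 = a
      generalize j.2.2 = b
      fin_cases a <;> fin_cases b <;> norm_num [sgC]
    exact Or.inr ⟨hL0, fun a ha b hb h1 h2 =>
      Prod.ext h1 (Prod.ext h2 ((hinj a ha).trans (hinj b hb).symm))⟩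

/-- Covering bound proportional to the visible area. -/
theorem cov_gad : ∀ p q, ∀ (ctr : E) (r : ℝ), 0 < r → r ≤ 1 / 8 → ∃ n : ℕ,
    (n : ℝ) * r ^ 2 ≤ 567 * (wlen ⟪e 0, ctr⟫ r 0 (X k D q) * wlen ⟪e 1, ctr⟫ r 0 (Y k D)) ∧
    CovAt (Gad e k D p q) ctr r n := by
  intro p q
  induction p, q using Gad.induct k D with
  | case1 q =>
    intro ctr r hr hr'
    by_cases hne : (Gad e k D 0 q ∩ Metric.closedBall ctr r).Nonempty
    · obtain ⟨z, hz, hzb⟩ := hne
      obtain ⟨x, y, u, h1, h2, h3, h4, h5, h6, h7, rfl⟩ := gad_bound e hD he 0 q z hz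
      have hx := abs_coord_le e he 0 _ _ hzb
      have hy := abs_coord_le e he 1 _ _ hzb
      rw [xc_pt e he x y h5] at hx
      rw [yc_pt e he x y h6] at hy
      have ha := wlen_ge hr.le h1 h2 hx (by linarith [one_le_X (k := k) hD q])
      have hb := wlen_ge hr.le h3 h4 hy (by linarith [Y_ge_two (k := k) hD])
      refine ⟨81 * 1, ?_, ?_⟩
      · push_cast
        nlinarith [mul_le_mul ha hb hr.le (hr.le.trans ha)]
      · refine cov_flat e he hr {0} fun w hw => ?_
        have := hw.1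
        rw [Gad] at this
        obtain ⟨a, b, -, -, -, -, rfl⟩ := this
        exact ⟨0, Finset.mem_singleton_self _, a, b, 0, by simp, by simp, by simp; positivity, rfl⟩
    · refine ⟨0, ?_, ∅, le_rfl, ?_⟩
      · simp only [Nat.cast_zero, zero_mul]
        exact mul_nonneg (by norm_num) (mul_nonneg (wlen_nonneg _ _ (Nat.cast_nonneg _))
          (wlen_nonneg _ _ (Nat.cast_nonneg _)))
      · rw [Set.not_nonempty_iff_eq_empty.mp hne]; exact Set.empty_subset _
  | case2 p =>
    intro ctr r hr hr'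
    by_cases hne : (Gad e k D (p + 1) 0 ∩ Metric.closedBall ctr r).Nonempty
    · obtain ⟨z, hz, hzb⟩ := hne
      obtain ⟨x, y, u, h1, h2, h3, h4, h5, h6, h7, rfl⟩ := gad_bound e hD he (p + 1) 0 z hz
      have hx := abs_coord_le e he 0 _ _ hzb
      have hy := abs_coord_le e he 1 _ _ hzb
      rw [xc_pt e he x y h5] at hx
      rw [yc_pt e he x y h6] at hy
      have ha := wlen_ge hr.le h1 h2 hx (by linarith [one_le_X (k := k) hD 0])
      have hb := wlen_ge hr.le h3 h4 hy (by linarith [Y_ge_two (k := k) hD])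
      refine ⟨81 * 1, ?_, ?_⟩
      · push_cast
        nlinarith [mul_le_mul ha hb hr.le (hr.le.trans ha)]
      · refine cov_flat e he hr {0} fun w hw => ?_
        have := hw.1
        rw [Gad] at this
        obtain ⟨a, b, -, -, -, -, rfl⟩ := this
        exact ⟨0, Finset.mem_singleton_self _, a, b, 0, by simp, by simp, by simp; positivity, rfl⟩
    · refine ⟨0, ?_, ∅, le_rfl, ?_⟩
      · simp only [Nat.cast_zero, zero_mul]
        exact mul_nonneg (by norm_num) (mul_nonneg (wlen_nonneg _ _ (Nat.cast_nonneg _))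
          (wlen_nonneg _ _ (Nat.cast_nonneg _)))
      · rw [Set.not_nonempty_iff_eq_empty.mp hne]; exact Set.empty_subset _
  | case3 p q ih1 ih2 =>
    intro ctr r hr hr'
    classical
    set cx := ⟪e 0, ctr⟫ with hcx
    set cy := ⟪e 1, ctr⟫ with hcy
    set f : IR k D (q + 1) ⊕ IC k D (q + 1) → Set E := Sum.elim
      (fun i => place (sR k D) (oR e k D (q + 1) i) '' Gad e k D p (Qn k D))
      (fun i => place (sC k D) (oC e k D (q + 1) i) '' Gad e k D (p + 1) q) with hf
    set T := Finset.univ.filter (fun i => (f i ∩ Metric.closedBall ctr r).Nonempty) with hT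
    have hA : Gad e k D (p + 1) (q + 1) ∩ Metric.closedBall ctr r ⊆ ⋃ i ∈ T, f i := by
      intro z hz
      have := hz.1
      rw [Gad] at this
      simp only [Set.mem_union, Set.mem_iUnion] at this
      simp only [Set.mem_iUnion]
      rcases this with ⟨i, hi⟩ | ⟨i, hi⟩
      · exact ⟨Sum.inl i, Finset.mem_filter.mpr ⟨Finset.mem_univ _, z, hi, hz.2⟩, hi⟩
      · exact ⟨Sum.inr i, Finset.mem_filter.mpr ⟨Finset.mem_univ _, z, hi, hz.2⟩, hi⟩
    have ht := t_pos (k := k) hD
    have htl := t_le (k := k) hD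
    have hsR := sR_pos (k := k) hD
    have hsC := sC_pos (k := k) hD
    have hRC := sR_le_sC (k := k) hD
    have hCt := sC_le_t (k := k) hD
    -- shape of touched children
    have shpR : ∀ i : IR k D (q + 1), ∀ z ∈ f (Sum.inl i) ∩ Metric.closedBall ctr r,
        ∃ x y : ℝ, ∃ u : E, ⟪e 0, u⟫ = 0 ∧ ⟪e 1, u⟫ = 0 ∧
        ‖u - offR e k D i.2.2 i.2.1‖ ≤ sR k D / 64 ∧ z = pt e x y u ∧
        yR k D i.2.1 ≤ cy + r ∧ cy - r ≤ yR k D i.2.1 + t k D := by
      rintro i _ ⟨⟨w, hw, rfl⟩, hzb⟩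
      obtain ⟨x, y, u, h1, h2, h3, h4, h5, h6, h7, rfl⟩ := gad_bound e hD he _ _ w hw
      have hy := abs_coord_le e he 1 _ _ hzb
      rw [oR, place_pt] at hy ⊢
      have hu0 : ⟪e 0, offR e k D i.2.2 i.2.1 + sR k D • u⟫ = 0 := by
        simp [inner_add_right, real_inner_smul_right, h5, inner_offR e he k D _ _ (show 0 < 3 by omega)]
      have hu1 : ⟪e 1, offR e k D i.2.2 i.2.1 + sR k D • u⟫ = 0 := by
        simp [inner_add_right, real_inner_smul_right, h6, inner_offR e he k D _ _ (show 1 < 3 by omega)]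
      rw [yc_pt e he _ _ hu1] at hy
      refine ⟨_, _, _, hu0, hu1, ?_, rfl, ?_, ?_⟩
      · rw [add_sub_cancel_left, norm_smul, Real.norm_eq_abs, abs_of_pos hsR]
        calc sR k D * ‖u‖ ≤ sR k D * (1 / 64) := by gcongr
          _ = sR k D / 64 := by ring
      · have := (abs_le.mp hy).2
        have : 0 ≤ sR k D * y := by positivity
        linarith
      · have := (abs_le.mp hy).1
        have := mul_le_mul_of_nonneg_left h4 hsR.le
        have := hR_le (k := k) hD
        linarith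
    have shpC : ∀ i : IC k D (q + 1), ∀ z ∈ f (Sum.inr i) ∩ Metric.closedBall ctr r,
        ∃ x y : ℝ, ∃ u : E, ⟪e 0, u⟫ = 0 ∧ ⟪e 1, u⟫ = 0 ∧
        ‖u - offC e k D i.2.2 i.1‖ ≤ sC k D / 64 ∧ z = pt e x y u ∧
        ((i.1 : ℕ) : ℝ) * W k D (q + 1) ≤ cx + r ∧
        cx - r ≤ ((i.1 : ℕ) : ℝ) * W k D (q + 1) + W k D (q + 1) := by
      rintro i _ ⟨⟨w, hw, rfl⟩, hzb⟩
      obtain ⟨x, y, u, h1, h2, h3, h4, h5, h6, h7, rfl⟩ := gad_bound e hD he _ _ w hw
      have hx := abs_coord_le e he 0 _ _ hzb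
      rw [oC, place_pt] at hx ⊢
      have hu0 : ⟪e 0, offC e k D i.2.2 i.1 + sC k D • u⟫ = 0 := by
        simp [inner_add_right, real_inner_smul_right, h5, inner_offC e he k D _ _ (show 0 < 2 by omega)]
      have hu1 : ⟪e 1, offC e k D i.2.2 i.1 + sC k D • u⟫ = 0 := by
        simp [inner_add_right, real_inner_smul_right, h6, inner_offC e he k D _ _ (show 1 < 2 by omega)]
      rw [xc_pt e he _ _ hu0] at hx
      refine ⟨_, _, _, hu0, hu1, ?_, rfl, ?_, ?_⟩
      · rw [add_sub_cancel_left, norm_smul, Real.norm_eq_abs, abs_of_pos hsC]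
        calc sC k D * ‖u‖ ≤ sC k D * (1 / 64) := by gcongr
          _ = sC k D / 64 := by ring
      · have := (abs_le.mp hx).2
        have : 0 ≤ sC k D * x := by positivity
        linarith
      · have := (abs_le.mp hx).1
        have := mul_le_mul_of_nonneg_left h2 hsC.le
        rw [sC_mul_X hD] at this
        linarith
    have shp : ∀ i, ∀ z ∈ f i ∩ Metric.closedBall ctr r, ∃ x y : ℝ, ∃ u : E, ⟪e 0, u⟫ = 0 ∧
        ⟪e 1, u⟫ = 0 ∧ ‖u - chU e i‖ ≤ chS i / 64 ∧ z = pt e x y u := by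
      rintro (i | i) z hz
      · obtain ⟨x, y, u, a, b, c, d, -⟩ := shpR i z hz; exact ⟨x, y, u, a, b, c, d⟩
      · obtain ⟨x, y, u, a, b, c, d, -⟩ := shpC i z hz; exact ⟨x, y, u, a, b, c, d⟩
    have rowU : ∀ i j : IR k D (q + 1), Sum.inl i ∈ T → Sum.inl j ∈ T → i.2.1 = j.2.1 := by
      intro i j hi hj
      obtain ⟨z, hz⟩ := (Finset.mem_filter.mp hi).2
      obtain ⟨w, hw⟩ := (Finset.mem_filter.mp hj).2
      obtain ⟨-, -, -, -, -, -, -, a1, a2⟩ := shpR i z hz
      obtain ⟨-, -, -, -, -, -, -, b1, b2⟩ := shpR j w hw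
      by_contra hne
      rcases lt_or_gt_of_ne (fun h => hne (Fin.ext h)) with h | h
      · have := yR_sep (k := k) hD (Nat.lt_succ_iff.mp i.2.1.2) (Nat.lt_succ_iff.mp j.2.1.2) h
        linarith
      · have := yR_sep (k := k) hD (Nat.lt_succ_iff.mp j.2.1.2) (Nat.lt_succ_iff.mp i.2.1.2) h
        linarith
    by_cases hall : ∀ i ∈ T, chS i / 8 ≤ r
    · -- every touched child is flat
      by_cases hTe : T = ∅
      · refine ⟨0, ?_, ∅, le_rfl, ?_⟩
        · simp only [Nat.cast_zero, zero_mul]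
          exact mul_nonneg (by norm_num) (mul_nonneg (wlen_nonneg _ _ (Nat.cast_nonneg _))
            (wlen_nonneg _ _ (Nat.cast_nonneg _)))
        · intro z hz; have := hA hz; simp [hTe] at this
      have hcard : (T.image (chU e)).card ≤ 7 := by
        have hsub : T.image (chU e) ⊆ (T.toLeft.image fun i => chU (q := q + 1) e (Sum.inl i)) ∪
            (T.toRight.image fun i => chU (q := q + 1) e (Sum.inr i)) := by
          intro o ho
          obtain ⟨i, hi, rfl⟩ := Finset.mem_image.mp ho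
          rcases i with i | i
          · exact Finset.mem_union_left _ (Finset.mem_image_of_mem _ (Finset.mem_toLeft.mpr hi))
          · exact Finset.mem_union_right _ (Finset.mem_image_of_mem _ (Finset.mem_toRight.mpr hi))
        have h3 : (T.toLeft.image fun i => chU (q := q + 1) e (Sum.inl i)).card ≤ 3 := by
          rcases T.toLeft.eq_empty_or_nonempty with h | ⟨i0, hi0⟩
          · simp [h]
          · refine (Finset.card_le_card (t := Finset.univ.image
              (fun s => offR e k D s i0.2.1)) ?_).trans (Finset.card_image_le.trans (by simp))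
            intro o ho
            obtain ⟨i, hi, rfl⟩ := Finset.mem_image.mp ho
            refine Finset.mem_image.mpr ⟨i.2.2, Finset.mem_univ _, ?_⟩
            simp only [chU, Sum.elim_inl]
            rw [rowU i i0 (Finset.mem_toLeft.mp hi) (Finset.mem_toLeft.mp hi0)]
        have h4 : (T.toRight.image fun i => chU (q := q + 1) e (Sum.inr i)).card ≤ 4 := by
          rcases T.toRight.eq_empty_or_nonempty with h | hne
          · simp [h]
          · obtain ⟨i0, hi0, hmin⟩ := Finset.exists_min_image _ (fun i : IC k D (q + 1) => (i.1 : ℕ)) hne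
            refine (Finset.card_le_card (t := (({(i0.1 : ℕ), (i0.1 : ℕ) + 1} : Finset ℕ) ×ˢ
              (Finset.univ : Finset (Fin 2))).image (fun p => offC e k D p.2 p.1)) ?_).trans
              (Finset.card_image_le.trans ?_)
            · intro o ho
              obtain ⟨i, hi, rfl⟩ := Finset.mem_image.mp ho
              refine Finset.mem_image.mpr ⟨((i.1 : ℕ), i.2.2), ?_, rfl⟩
              have hle := hmin i hi
              obtain ⟨z, hz⟩ := (Finset.mem_filter.mp (Finset.mem_toRight.mp hi)).2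
              obtain ⟨w, hw⟩ := (Finset.mem_filter.mp (Finset.mem_toRight.mp hi0)).2
              obtain ⟨-, -, -, -, -, -, -, a1, -⟩ := shpC i z hz
              obtain ⟨-, -, -, -, -, -, -, -, b2⟩ := shpC i0 w hw
              have hW := W_one_le (k := k) hD (q + 1)
              have hlt : ((i.1 : ℕ) : ℝ) < ((i0.1 : ℕ) : ℝ) + 2 := by
                by_contra hge
                have := mul_le_mul_of_nonneg_right (not_lt.mp hge) (zero_le_one.trans hW)
                linarith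
              have hlt' : (i.1 : ℕ) < (i0.1 : ℕ) + 2 := by exact_mod_cast hlt
              simp only [Finset.mem_product, Finset.mem_insert, Finset.mem_singleton,
                Finset.mem_univ, and_true]
              omega
            · rw [Finset.card_product, Finset.card_univ, Fintype.card_fin]
              have : ({(i0.1 : ℕ), (i0.1 : ℕ) + 1} : Finset ℕ).card ≤ 2 := Finset.card_le_two
              omega
        exact (Finset.card_le_card hsub).trans ((Finset.card_union_le _ _).trans (by omega))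
      refine ⟨81 * (T.image (chU e)).card, ?_, ?_⟩
      · obtain ⟨i, hi⟩ := Finset.nonempty_iff_ne_empty.mpr hTe
        obtain ⟨z, hz⟩ := (Finset.mem_filter.mp hi).2
        have hzG : z ∈ Gad e k D (p + 1) (q + 1) := by
          rw [Gad]
          rcases i with i | i
          · exact Or.inl (Set.mem_iUnion.mpr ⟨i, hz.1⟩)
          · exact Or.inr (Set.mem_iUnion.mpr ⟨i, hz.1⟩)
        obtain ⟨x, y, u, h1, h2, h3, h4, h5, h6, h7, rfl⟩ := gad_bound e hD he _ _ z hzG
        have hx := abs_coord_le e he 0 _ _ hz.2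
        have hy := abs_coord_le e he 1 _ _ hz.2
        rw [xc_pt e he x y h5] at hx
        rw [yc_pt e he x y h6] at hy
        have ha := wlen_ge hr.le h1 h2 hx (by linarith [one_le_X (k := k) hD (q + 1)])
        have hb := wlen_ge hr.le h3 h4 hy (by linarith [Y_ge_two (k := k) hD])
        have h8 : ((T.image (chU e)).card : ℝ) ≤ 7 := by exact_mod_cast hcard
        push_cast
        calc (81 : ℝ) * (T.image (chU e)).card * r ^ 2 ≤ 81 * 7 * r ^ 2 := by gcongr
          _ ≤ _ := by nlinarith [mul_le_mul ha hb hr.le (hr.le.trans ha)]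
      · refine cov_flat e he hr _ fun z hz => ?_
        have := hA hz
        simp only [Set.mem_iUnion] at this
        obtain ⟨i, hi, hzi⟩ := this
        obtain ⟨x, y, u, a, b, c, d⟩ := shp i z ⟨hzi, hz.2⟩
        exact ⟨_, Finset.mem_image_of_mem _ hi, x, y, u, a, b, by have := hall i hi; linarith, d⟩
    · -- a single sheet is touched
      push Not at hall
      obtain ⟨j, hj, hjr⟩ := hall
      have hrC : r < sC k D / 8 := by
        rcases j with j | j <;> simp only [chS, Sum.elim_inl, Sum.elim_inr] at hjr <;> linarith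
      have one : ∀ i ∈ T, chU e i = chU e j := by
        intro i hi
        by_contra hne
        obtain ⟨z, hz⟩ := (Finset.mem_filter.mp hi).2
        obtain ⟨w, hw⟩ := (Finset.mem_filter.mp hj).2
        obtain ⟨x, y, u, a, b, c, rfl⟩ := shp i z hz
        obtain ⟨x', y', u', a', b', c', rfl⟩ := shp j w hw
        have h6 := off_close e he a b a' b' hz.2 hw.2
        have hs : ∀ l : IR k D (q + 1) ⊕ IC k D (q + 1), chS l ≤ sC k D := by
          rintro (l | l) <;> simp [chS, hRC]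
        have hlat : ∀ l : IR k D (q + 1) ⊕ IC k D (q + 1), ∃ v ∈ Lat e, chU e l = t k D • v := by
          rintro (l | l)
          · exact offR_eq e k D _ _
          · exact offC_eq e k D _ _
        obtain ⟨v, hv, hv'⟩ := hlat i
        obtain ⟨v', hv1, hv1'⟩ := hlat j
        have hne' : v - v' ≠ 0 := fun h => hne (by rw [hv', hv1', sub_eq_zero.mp h])
        have hge := lat_norm_ge e he (sub_mem hv hv1) hne'
        have : t k D ≤ ‖chU e i - chU e j‖ := by
          rw [hv', hv1', ← smul_sub, norm_smul, Real.norm_eq_abs, abs_of_pos ht]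
          exact le_mul_of_one_le_right ht.le hge
        have h9 : ‖chU e i - chU e j‖ ≤ ‖u - chU e i‖ + ‖u - u'‖ + ‖u' - chU e j‖ := by
          have : chU e i - chU e j = (-(u - chU e i)) + (u - u') + (u' - chU e j) := by abel
          rw [this]
          refine norm_add₃_le.trans (le_of_eq ?_)
          rw [norm_neg]
        have := hs i
        have := hs j
        linarith
      have nomix : ∀ (i : IR k D (q + 1)) (l : IC k D (q + 1)),
          Sum.inl i ∈ T → Sum.inr l ∈ T → False := by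
        intro i l hi hl
        have h := (one _ hi).trans (one _ hl).symm
        simp only [chU, Sum.elim_inl, Sum.elim_inr] at h
        have h2 := inner_offC_two e he k D l.2.2 l.1
        rw [← h, inner_offR e he k D _ _ (show 2 < 3 by omega)] at h2
        have : sgC l.2.2 ≠ 0 := by
          generalize l.2.2 = a
          fin_cases a <;> simp [sgC]
        exact mul_ne_zero this ht.ne' h2.symm
      have hbig : ∀ i ∈ T, r < chS i / 8 := by
        rintro (i | i) hi
        · rcases j with j | j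
          · simpa [chS] using hjr
          · exact (nomix i j hi hj).elim
        · simpa [chS] using hrC
      refine combine hD T (childArea cx cy r) f hA (sum_childArea hD cx cy r T ?_)
        (fun i hi => child_each e he hD hr ih1 ih2 i (hbig i hi))
      exact single_sheet e he hD T j hj one rowU nomix

/-- Covering bound at every radius. -/
theorem cov_root (p q : ℕ) (ctr : E) (r : ℝ) (hr : 0 < r) :
    CovAt (Gad e k D p q) ctr r 9072 := by
  by_cases hsmall : r ≤ 1 / 8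
  · obtain ⟨n, hn, hc⟩ := cov_gad e he hD p q ctr r hr hsmall
    refine hc.mono ?_
    have h4 : ∀ c a b : ℝ, wlen c r a b ≤ 4 * r := fun c a b => by
      have h1 : clampW c r b ≤ c + 2 * r := max_le (by linarith) (min_le_left _ _)
      have h2 : c - 2 * r ≤ clampW c r a := le_max_left _ _
      simp only [wlen]; linarith
    have hp := wlen_nonneg ⟪e 0, ctr⟫ r (Nat.cast_nonneg (α := ℝ) (X k D q))
    have h16 := mul_le_mul (h4 ⟪e 0, ctr⟫ 0 (X k D q)) (h4 ⟪e 1, ctr⟫ 0 (Y k D))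
      (wlen_nonneg _ _ (Nat.cast_nonneg _)) (by positivity)
    have : (n : ℝ) * r ^ 2 ≤ 9072 * r ^ 2 := by nlinarith
    have := le_of_mul_le_mul_right this (by positivity)
    exact_mod_cast this
  · refine (cov_flat e he hr {0} fun z hz => ?_).mono (by simp)
    obtain ⟨x, y, u, -, -, -, -, h5, h6, h7, rfl⟩ := gad_bound e hD he p q z hz.1
    exact ⟨0, Finset.mem_singleton_self _, x, y, u, h5, h6, by rw [sub_zero]; linarith, rfl⟩

end gadget

end

end Vale.Agent.P208
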