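import Mathlib
import Vale.Agent.P208.Gadget

namespace Vale.Agent.P208

open scoped RealInnerProductSpace

noncomputable section

variable {K : Type*} [NormedAddCommGroup K] [InnerProductSpace ℝ K]

lemma variance_id {ι : Type*} (s : Finset ι) (d : ι → K) (m : K)
    (h : ∑ i ∈ s, d i = (s.card : ℝ) • m) :
    ∑ i ∈ s, ‖d i‖ ^ 2 = (s.card : ℝ) * ‖m‖ ^ 2 + ∑ i ∈ s, ‖d i - m‖ ^ 2 := by
  simp only [norm_sub_sq_real, Finset.sum_add_distrib, Finset.sum_sub_distrib, Finset.sum_const,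
    nsmul_eq_mul, ← Finset.mul_sum, ← sum_inner, h, real_inner_smul_left, real_inner_self_eq_norm_sq]
  ring

lemma sq_lower {a b ε D : ℝ} (ha : 0 ≤ a) (haD : a ≤ D) (hbD : b ≤ D) (hε : 0 ≤ ε)
    (h : b - ε ≤ a) (hb : 0 ≤ b) : b ^ 2 - 2 * D * ε ≤ a ^ 2 := by
  by_cases hab : b ≤ a
  · nlinarith
  · push Not at hab
    nlinarith [mul_le_mul (show b - a ≤ ε by linarith) (show a + b ≤ 2 * D by linarith)
      (by linarith) hε]

lemma sum_range_split (f : ℕ → ℝ) (a b : ℕ) :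
    ∑ i ∈ Finset.range a, ∑ j ∈ Finset.range b, f (i * b + j) = ∑ n ∈ Finset.range (a * b), f n := by
  induction a with
  | zero => simp
  | succ a ih =>
    rw [Finset.sum_range_succ, ih, Nat.succ_mul, Finset.sum_range_add]

lemma norm_sub_range_le {F : Type*} [SeminormedAddCommGroup F] (g : ℕ → F) {n n' G : ℕ}
    (hn : n < G) (hn' : n' < G) :
    ‖g n - g n'‖ ≤ ∑ l ∈ Finset.range G, ‖g (l + 1) - g l‖ := by
  wlog h : n ≤ n' generalizing n n'
  · rw [norm_sub_rev]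
    exact this hn' hn (le_of_not_ge h)
  have h1 := dist_le_Ico_sum_dist g h
  rw [dist_eq_norm] at h1
  refine h1.trans ?_
  calc ∑ l ∈ Finset.Ico n n', dist (g l) (g (l + 1))
      = ∑ l ∈ Finset.Ico n n', ‖g (l + 1) - g l‖ := by
        simp only [dist_eq_norm, norm_sub_rev]
    _ ≤ _ := Finset.sum_le_sum_of_subset_of_nonneg
        (fun l hl => Finset.mem_range.mpr (by have := (Finset.mem_Ico.mp hl).2; omega))
        (fun _ _ _ => norm_nonneg _)

/-- Gain of the horizontal potential. -/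
def Gam (k D q : ℕ) : ℝ := 1 / ((C0 k D : ℝ) * (W k D q : ℝ) ^ 3)

/-- Accumulated horizontal losses. -/
def sig (k D q : ℕ) : ℝ := ∑ i ∈ Finset.range q, Gam k D i / 4

/-- Uniform horizontal gain. -/
def gam (k D : ℕ) : ℝ := Gam k D (Qn k D) / 2

/-- Vertical gain. -/
def eta (k D : ℕ) : ℝ := 1 / (32 * (G k D : ℝ) ^ 3 * (M k D : ℝ) ^ 2)

/-- Fraction of exceptional blocks. -/
def mu (k D : ℕ) : ℝ := 1 / (64 * (D : ℝ) ^ 2 * (G k D : ℝ) ^ 3 * (M k D : ℝ) ^ 2)

/-- Threshold for deviations of pieces. -/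
def theta (k D q : ℕ) : ℝ := t k D / (4 * (G k D : ℝ) * (W k D q : ℝ))

section
variable {k D : ℕ} (hD : 1 ≤ D)
include hD

lemma Gam_pos (q : ℕ) : 0 < Gam k D q := by
  have h1 : (0 : ℝ) < C0 k D := by exact_mod_cast C0_pos hD
  have h2 := Wpos' (k := k) hD q
  simp only [Gam]; positivity

lemma Gam_succ (q : ℕ) : Gam k D (q + 1) ≤ Gam k D q / 2 := by
  have h1 : (0 : ℝ) < C0 k D := by exact_mod_cast C0_pos hD
  have h2 := Wpos' (k := k) hD q
  have h3 : 2 * W k D q ≤ W k D (q + 1) := by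
    show 2 * W k D q ≤ C1 k D * W k D q ^ 3
    exact Nat.mul_le_mul (C1_two hD) (Nat.le_self_pow (by norm_num) _)
  have h3' : 2 * (W k D q : ℝ) ≤ W k D (q + 1) := by exact_mod_cast h3
  simp only [Gam]
  rw [div_div]
  refine one_div_le_one_div_of_le (by positivity) ?_
  have h4 : (2 * (W k D q : ℝ)) ^ 3 ≤ (W k D (q + 1) : ℝ) ^ 3 := by gcongr
  have h5 : (0 : ℝ) < (W k D q : ℝ) ^ 3 := by positivity
  nlinarith

lemma Gam_anti {q r : ℕ} (h : q ≤ r) : Gam k D r ≤ Gam k D q := by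
  induction h with
  | refl => exact le_rfl
  | step _ ih =>
    refine le_trans ((Gam_succ hD _).trans ?_) ih
    have := Gam_pos (k := k) hD (by assumption)
    linarith

lemma Gam_tail (q n : ℕ) :
    ∑ i ∈ Finset.range n, Gam k D (q + i) ≤ 2 * Gam k D q := by
  induction n generalizing q with
  | zero => simp only [Finset.range_zero, Finset.sum_empty]; have := Gam_pos (k := k) hD q; linarith
  | succ n ih =>
    rw [Finset.sum_range_succ']
    have h1 := ih (q + 1)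
    have h2 := Gam_succ (k := k) hD q
    simp only [add_zero]
    have h3 : ∑ i ∈ Finset.range n, Gam k D (q + (i + 1))
        = ∑ i ∈ Finset.range n, Gam k D (q + 1 + i) :=
      Finset.sum_congr rfl fun i _ => by rw [Nat.add_comm i 1, ← Nat.add_assoc]
    rw [h3]
    linarith

lemma sig_nonneg (q : ℕ) : 0 ≤ sig k D q :=
  Finset.sum_nonneg fun i _ => by have := Gam_pos (k := k) hD i; linarith

lemma sig_diff {q : ℕ} (hq : q ≤ Qn k D) : sig k D (Qn k D) - sig k D q ≤ Gam k D q / 2 := by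
  obtain ⟨n, hn⟩ := Nat.exists_eq_add_of_le hq
  rw [hn, sig, sig, Finset.sum_range_add, add_sub_cancel_left, ← Finset.sum_div]
  have := Gam_tail (k := k) hD q n
  linarith

lemma loss_eq (q : ℕ) : 8 * (D : ℝ) ^ 2 / (W k D (q + 1) : ℝ) = Gam k D q / 4 := by
  have h1 : (0 : ℝ) < C0 k D := by exact_mod_cast C0_pos hD
  have h2 := Wpos' (k := k) hD q
  have h3 : (0 : ℝ) < D := by exact_mod_cast hD
  simp only [Gam, W, C1]; push_cast; field_simp; norm_num

lemma Y_X (q : ℕ) : ((Y k D : ℝ) + 1) / (X k D q : ℝ) ≤ 2 / (W k D (q + 1) : ℝ) := by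
  have h1 := Ypos' (k := k) hD
  have h2 := Wpos' (k := k) hD (q + 1)
  have h3 := Y_ge_two (k := k) hD
  simp only [X]; push_cast
  rw [div_le_div_iff₀ (by positivity) h2]
  nlinarith

lemma eta_pos : 0 < eta k D := by
  have h1 : (0 : ℝ) < G k D := by exact_mod_cast G_pos k D
  have h2 : (0 : ℝ) < M k D := by exact_mod_cast M_pos hD
  simp only [eta]; positivity

lemma mu_pos : 0 < mu k D := by
  have h1 : (0 : ℝ) < G k D := by exact_mod_cast G_pos k D
  have h2 : (0 : ℝ) < M k D := by exact_mod_cast M_pos hD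
  have h3 : (0 : ℝ) < D := by exact_mod_cast hD
  simp only [mu]; positivity

lemma mu_lt_one : mu k D < 1 := by
  have h1 : (1 : ℝ) ≤ G k D := by exact_mod_cast G_pos k D
  have h2 : (1 : ℝ) ≤ M k D := by exact_mod_cast M_pos hD
  have h3 : (1 : ℝ) ≤ D := by exact_mod_cast hD
  simp only [mu]
  rw [div_lt_one (by positivity)]
  calc (1 : ℝ) < 64 * 1 ^ 2 * 1 ^ 3 * 1 ^ 2 := by norm_num
    _ ≤ _ := by gcongr

lemma Qn_eta : (D : ℝ) ^ 2 < (Qn k D : ℝ) * eta k D := by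
  have h1 : (0 : ℝ) < G k D := by exact_mod_cast G_pos k D
  have h2 : (0 : ℝ) < M k D := by exact_mod_cast M_pos hD
  simp only [Qn, eta]; push_cast
  rw [mul_one_div, lt_div_iff₀ (by positivity)]
  nlinarith

lemma two_DM_le_My : 2 * (D : ℝ) * (M k D : ℝ) ≤ My k D := by
  have h1 : (1 : ℝ) ≤ G k D := by exact_mod_cast G_pos k D
  have h2 : (1 : ℝ) ≤ M k D := by exact_mod_cast M_pos hD
  have h3 : (1 : ℝ) ≤ D := by exact_mod_cast hD
  simp only [My]; push_cast
  calc 2 * (D : ℝ) * (M k D : ℝ) ≤ 128 * (D : ℝ) * 1 ^ 3 * (M k D : ℝ) := by nlinarith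
    _ ≤ 128 * (D : ℝ) ^ 2 * (G k D : ℝ) ^ 3 * (M k D : ℝ) ^ 2 := by
      gcongr
      · exact le_self_pow₀ h3 (by norm_num)
      · exact le_self_pow₀ h2 (by norm_num)

lemma My_le_Mx (q : ℕ) : (My k D : ℝ) ≤ Mx k D q := by
  have : My k D ≤ Mx k D q := by
    simp only [Mx]
    rw [mul_assoc]
    exact Nat.le_mul_of_pos_right _ (Nat.mul_pos (C1_pos hD) (pow_pos (W_pos hD q) 2))
  exact_mod_cast this

lemma err_small : 2 * (D : ℝ) ^ 2 / (Y k D : ℝ) ≤ eta k D / 2 := by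
  have h1 : (1 : ℝ) ≤ G k D := by exact_mod_cast G_pos k D
  have h2 : (1 : ℝ) ≤ M k D := by exact_mod_cast M_pos hD
  have h3 : (1 : ℝ) ≤ D := by exact_mod_cast hD
  simp only [Y, My, eta]; push_cast
  rw [div_div, div_le_div_iff₀ (by positivity) (by positivity)]
  have : (0:ℝ) ≤ (D:ℝ)^2 * (G k D : ℝ)^3 * (M k D:ℝ)^2 := by positivity
  nlinarith

end

end

end Vale.Agent.P208
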