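import Mathlib
import Vale.Agent.P208.Quant

namespace Vale.Agent.P208

open scoped RealInnerProductSpace

noncomputable section

variable {E : Type*} [NormedAddCommGroup E] [InnerProductSpace ℝ E] (e : ℕ → E)

/-- Two-sided Lipschitz bound normalised to lower constant one. -/
def BiL {K : Type*} [NormedAddCommGroup K] (D : ℕ) (S : Set E) (f : E → K) : Prop :=
  ∀ z ∈ S, ∀ w ∈ S, ‖z - w‖ ≤ ‖f z - f w‖ ∧ ‖f z - f w‖ ≤ (D : ℝ) * ‖z - w‖

/-- Difference of the two sheets of a row. -/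
def gRow {K : Type*} [NormedAddCommGroup K] (k D : ℕ) (f : E → K) (n : ℕ) (x : ℝ) : K :=
  f (pt e x n (offR e k D 1 n)) - f (pt e x n (offR e k D 2 n))

/-- Difference of the two sheets of a column. -/
def gCol {K : Type*} [NormedAddCommGroup K] (k D : ℕ) (f : E → K) (c : ℕ) (x y : ℝ) : K :=
  f (pt e x y (offC e k D 0 c)) - f (pt e x y (offC e k D 1 c))

lemma node_add (k D j n : ℕ) : node k D (j * G k D + n) = node k D n := by
  simp only [node]
  congr 2
  rw [Nat.add_comm, Nat.add_mul_mod_self_right]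

/-- The number of a node. -/
def num (k D : ℕ) (a : Node k D) : ℕ := (Finite.equivFin (Node k D) a).val

lemma num_lt (k D : ℕ) (a : Node k D) : num k D a < G k D := (Finite.equivFin (Node k D) a).2

lemma node_num (k D : ℕ) (a : Node k D) : node k D (num k D a) = a := by
  simp only [node, num]
  have h := (Finite.equivFin (Node k D) a).2
  have : (⟨(Finite.equivFin (Node k D) a).val % G k D, Nat.mod_lt _ (G_pos k D)⟩ : Fin (G k D))
      = Finite.equivFin (Node k D) a := Fin.ext (Nat.mod_eq_of_lt h)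
  exact (congrArg _ this).trans (Equiv.symm_apply_apply _ a)

variable (he : Orthonormal ℝ e) {k D : ℕ} (hD : 1 ≤ D)
include he hD

omit he in
lemma rowPt_mem (p q n : ℕ) (hn : n < Y k D) (s : Fin 3) {x : ℝ} (h0 : 0 ≤ x)
    (h1 : x ≤ X k D (q + 1)) :
    pt e x n (offR e k D s n) ∈ Gad e k D (p + 1) (q + 1) := by
  have := row_mem e hD p q ⟨n, by omega⟩ s h0 h1
  simpa [yR, hn] using this

lemma gRow_sub (p q n : ℕ) (hn : n < Y k D) {f : E → EuclideanSpace ℝ (Fin k)}
    (hf : BiL D (Gad e k D (p + 1) (q + 1)) f) {x x' : ℝ} (h0 : 0 ≤ x)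
    (h1 : x ≤ X k D (q + 1)) (h0' : 0 ≤ x') (h1' : x' ≤ X k D (q + 1)) :
    ‖gRow e k D f n x - gRow e k D f n x'‖ ≤ 2 * (D : ℝ) * |x - x'| := by
  simp only [gRow]
  rw [sub_sub_sub_comm]
  refine (norm_sub_le _ _).trans ?_
  have a := (hf _ (rowPt_mem e hD p q n hn 1 h0 h1) _ (rowPt_mem e hD p q n hn 1 h0' h1')).2
  have b := (hf _ (rowPt_mem e hD p q n hn 2 h0 h1) _ (rowPt_mem e hD p q n hn 2 h0' h1')).2
  rw [norm_pt_sub_x e he] at a b
  linarith

theorem no_good_cell (p q i j : ℕ) {f : E → EuclideanSpace ℝ (Fin k)}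
    (hf : BiL D (Gad e k D (p + 1) (q + 1)) f) (hi : i < Mx k D (q + 1)) (hj : j < My k D)
    (hR : ∀ n < Y k D, ∀ l ≤ G k D * W k D (q + 1) * M k D,
      ‖gRow e k D f n (((i * (G k D * W k D (q + 1) * M k D) + l : ℕ) : ℝ) * t k D)
        - gRow e k D f n (((i * (G k D * W k D (q + 1) * M k D) : ℕ) : ℝ) * t k D)‖ ≤ t k D)
    (hC : ∀ b < G k D, ∀ n < G k D, ∀ n' < G k D, ∃ r : ℝ, 0 ≤ r ∧ r ≤ W k D (q + 1) ∧
      ‖gCol e k D f (i * G k D + b) (((i * G k D + b : ℕ) : ℝ) * W k D (q + 1) + r)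
          ((j * G k D + n : ℕ) : ℝ)
        - gCol e k D f (i * G k D + b) (((i * G k D + b : ℕ) : ℝ) * W k D (q + 1) + r)
          ((j * G k D + n' : ℕ) : ℝ)‖ ≤ t k D) :
    False := by
  have ht := t_pos (k := k) hD
  have hW := Wpos' (k := k) hD (q + 1)
  have hMt := M_eq (k := k) hD
  have hD1 : (1 : ℝ) ≤ D := by exact_mod_cast hD
  set B := G k D * W k D (q + 1) * M k D with hB
  have hBt : (B : ℝ) * t k D = (G k D : ℝ) * W k D (q + 1) := by
    rw [hB]; push_cast; rw [mul_assoc, hMt, mul_one]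
  set x0 := (((i * B : ℕ) : ℝ)) * t k D with hx0
  have hx0' : x0 = ((i * G k D : ℕ) : ℝ) * W k D (q + 1) := by
    rw [hx0]; push_cast; rw [mul_assoc, hBt]; ring
  have hX : (X k D (q + 1) : ℝ) = ((Mx k D (q + 1) : ℕ) : ℝ) * G k D * W k D (q + 1) := by
    rw [← ncol_mul_W k D (q + 1)]; simp only [ncol]; push_cast; ring
  have hcell : ∀ b < G k D, ∀ r : ℝ, 0 ≤ r → r ≤ W k D (q + 1) →
      let x := ((i * G k D + b : ℕ) : ℝ) * W k D (q + 1) + r
      (0 ≤ x ∧ x ≤ X k D (q + 1)) ∧ (x0 ≤ x ∧ x ≤ x0 + (B : ℝ) * t k D) := by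
    intro b hb r hr0 hr1 x
    have hb' : (b : ℝ) + 1 ≤ G k D := by exact_mod_cast hb
    have hi' : (i : ℝ) + 1 ≤ Mx k D (q + 1) := by exact_mod_cast hi
    have hi0 : (0 : ℝ) ≤ i := Nat.cast_nonneg _
    have hb0 : (0 : ℝ) ≤ b := Nat.cast_nonneg _
    have hG : (0 : ℝ) ≤ G k D := Nat.cast_nonneg _
    simp only [x]
    rw [hx0', hBt]
    push_cast
    refine ⟨⟨by positivity, ?_⟩, ?_, ?_⟩
    · rw [hX]
      nlinarith [mul_le_mul_of_nonneg_right hb' hW.le,
        mul_le_mul_of_nonneg_right hi' (mul_nonneg hG hW.le)]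
    · nlinarith
    · nlinarith [mul_le_mul_of_nonneg_right hb' hW.le]
  -- row values
  set w : Node k D → EuclideanSpace ℝ (Fin k) :=
    fun a => gRow e k D f (j * G k D + num k D a) x0 with hw
  have hrow : ∀ a : Node k D, j * G k D + num k D a < Y k D := by
    intro a
    have h1 := num_lt k D a
    have h2 : (j + 1) * G k D ≤ My k D * G k D := Nat.mul_le_mul_right _ hj
    simp only [Y]
    rw [Nat.succ_mul] at h2
    omega
  have hnear : ∀ (a : Node k D) (b : ℕ), b < G k D → ∀ r : ℝ, 0 ≤ r → r ≤ W k D (q + 1) →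
      ‖gRow e k D f (j * G k D + num k D a)
        (((i * G k D + b : ℕ) : ℝ) * W k D (q + 1) + r) - w a‖ ≤ 3 * D * t k D := by
    intro a b hb r hr0 hr1
    obtain ⟨⟨hx1, hx2⟩, hx3, hx4⟩ := hcell b hb r hr0 hr1
    set x := ((i * G k D + b : ℕ) : ℝ) * W k D (q + 1) + r
    have hBpos : 0 < B := Nat.mul_pos (Nat.mul_pos (G_pos k D) (W_pos hD _)) (M_pos hD)
    obtain ⟨l, hl1, hl2⟩ := exists_piece hBpos ht (x := x - x0) (by linarith) (by linarith)
    have hgrid : (((i * B + l : ℕ)) : ℝ) * t k D = x0 + ((l : ℕ) : ℝ) * t k D := by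
      rw [hx0]; push_cast; ring
    have h1 := hR _ (hrow a) l l.2.le
    rw [hgrid] at h1
    have hl0 : 0 ≤ ((l : ℕ) : ℝ) * t k D := by positivity
    have hx00 : 0 ≤ x0 := mul_nonneg (Nat.cast_nonneg _) ht.le
    have h2 := gRow_sub e he hD p q _ (hrow a) hf hx1 hx2 (x' := x0 + ((l : ℕ) : ℝ) * t k D)
      (by linarith) (by linarith)
    have h3 : |x - (x0 + ((l : ℕ) : ℝ) * t k D)| ≤ t k D := by
      rw [abs_of_nonneg (by linarith)]; linarith
    have h4 := norm_sub_le_norm_sub_add_norm_sub (gRow e k D f (j * G k D + num k D a) x)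
      (gRow e k D f (j * G k D + num k D a) (x0 + ((l : ℕ) : ℝ) * t k D)) (w a)
    have h5 : 2 * (D : ℝ) * |x - (x0 + ((l : ℕ) : ℝ) * t k D)| ≤ 2 * D * t k D := by gcongr
    have h6 : t k D ≤ D * t k D := le_mul_of_one_le_left ht.le hD1
    simp only [hw] at h4 ⊢
    linarith
  have hcolmem : ∀ (a : Node k D) (b : ℕ), b < G k D → ∀ r : ℝ, 0 ≤ r → r ≤ W k D (q + 1) →
      ∀ s : Fin 2, pt e (((i * G k D + b : ℕ) : ℝ) * W k D (q + 1) + r)
        ((j * G k D + num k D a : ℕ) : ℝ) (offC e k D s (i * G k D + b))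
        ∈ Gad e k D (p + 1) (q + 1) := by
    intro a b hb r hr0 hr1 s
    have hc : i * G k D + b < ncol k D (q + 1) := by
      have : (i + 1) * G k D ≤ Mx k D (q + 1) * G k D := Nat.mul_le_mul_right _ hi
      rw [Nat.succ_mul] at this
      simp only [ncol]; omega
    exact (col_mem e hD p q ⟨_, hc⟩ ⟨_, hrow a⟩ s hr0 hr1).1
  have hvb : ∀ (c : Node k D) (j : ℕ), vN e k D (j * G k D + num k D c) = vec e c.1 := by
    intro c j; rw [vN, node_add, node_num]
  -- junctions
  have hjun : ∀ (a b : Node k D) (r : ℝ), 0 ≤ r → r ≤ W k D (q + 1) → ∀ (σ : ℝ), (σ = 1 ∨ σ = -1) →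
      ∀ L : ℝ, ‖σ • vec e a.1 - (vec e b.1 + e 2)‖ ≤ L →
      ‖σ • gRow e k D f (j * G k D + num k D a)
          (((i * G k D + num k D b : ℕ) : ℝ) * W k D (q + 1) + r)
        - gCol e k D f (i * G k D + num k D b)
          (((i * G k D + num k D b : ℕ) : ℝ) * W k D (q + 1) + r)
          ((j * G k D + num k D a : ℕ) : ℝ)‖ ≤ 2 * D * (t k D * L) := by
    intro a b r hr0 hr1 σ hσ L hL
    obtain ⟨⟨hx1, hx2⟩, -, -⟩ := hcell _ (num_lt k D b) r hr0 hr1
    set x := ((i * G k D + num k D b : ℕ) : ℝ) * W k D (q + 1) + r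
    set n := j * G k D + num k D a with hn
    set c := i * G k D + num k D b with hc
    have m1 := rowPt_mem e hD p q n (hrow a) 1 hx1 hx2
    have m2 := rowPt_mem e hD p q n (hrow a) 2 hx1 hx2
    have m3 := hcolmem a _ (num_lt k D b) r hr0 hr1 0
    have m4 := hcolmem a _ (num_lt k D b) r hr0 hr1 1
    have key : ∀ u u' : E, ‖u - u'‖ ≤ t k D * L →
        pt e x n u ∈ Gad e k D (p + 1) (q + 1) → pt e x n u' ∈ Gad e k D (p + 1) (q + 1) →
        ‖f (pt e x n u) - f (pt e x n u')‖ ≤ D * (t k D * L) := by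
      intro u u' huu hu hu'
      refine (hf _ hu _ hu').2.trans ?_
      rw [pt_sub, pt, sub_self, sub_self, zero_smul, zero_smul, zero_add, zero_add]
      gcongr
    have hoR1 : offR e k D 1 n = t k D • vec e a.1 := by simp [offR, sgR, hn, hvb]
    have hoR2 : offR e k D 2 n = (-t k D) • vec e a.1 := by simp [offR, sgR, hn, hvb]
    have hoC1 : offC e k D 0 c = t k D • (vec e b.1 + e 2) := by simp [offC, sgC, hc, hvb]
    have hoC2 : offC e k D 1 c = (-t k D) • (vec e b.1 + e 2) := by simp [offC, sgC, hc, hvb]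
    have hnorm : ∀ τ : ℝ, |τ| = t k D →
        ‖τ • (σ • vec e a.1) - τ • (vec e b.1 + e 2)‖ ≤ t k D * L := fun τ hτ => by
      rw [← smul_sub, norm_smul, Real.norm_eq_abs, hτ]; gcongr
    have hp := hnorm (t k D) (abs_of_pos ht)
    have hm := hnorm (-t k D) (by rw [abs_neg, abs_of_pos ht])
    simp only [gRow, gCol]
    rcases hσ with rfl | rfl
    · simp only [one_smul] at hp hm ⊢
      rw [← hoR1, ← hoC1] at hp
      rw [← hoR2, ← hoC2] at hm
      have k1 := key _ _ hp m1 m3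
      have k2 := key _ _ hm m2 m4
      rw [sub_sub_sub_comm]
      exact (norm_sub_le _ _).trans (by linarith)
    · have e1 : t k D • ((-1 : ℝ) • vec e a.1) = offR e k D 2 n := by rw [hoR2]; module
      have e2' : (-t k D) • ((-1 : ℝ) • vec e a.1) = offR e k D 1 n := by rw [hoR1]; module
      rw [e1, ← hoC1] at hp
      rw [e2', ← hoC2] at hm
      rw [neg_one_smul]
      have k1 := key _ _ hp m2 m3
      have k2 := key _ _ hm m1 m4
      rw [neg_sub, sub_sub_sub_comm]
      exact (norm_sub_le _ _).trans (by linarith)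
  -- bounds on row values
  have hsize : ∀ a : Node k D, 2 * (sN k D : ℝ) * t k D ≤ ‖w a‖ ∧
      ‖w a‖ ≤ 2 * D * (sN k D : ℝ) * t k D := by
    intro a
    obtain ⟨⟨hx1, hx2⟩, -, -⟩ := hcell 0 (G_pos k D) 0 le_rfl hW.le
    have hxe : ((i * G k D + 0 : ℕ) : ℝ) * W k D (q + 1) + 0 = x0 := by rw [hx0']; simp
    rw [hxe] at hx1 hx2
    have h := hf _ (rowPt_mem e hD p q _ (hrow a) 1 hx1 hx2) _
      (rowPt_mem e hD p q _ (hrow a) 2 hx1 hx2)
    rw [pt_sub, pt, sub_self, sub_self, zero_smul, zero_smul, zero_add, zero_add] at h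
    have hd : ‖offR e k D 1 (j * G k D + num k D a) - offR e k D 2 (j * G k D + num k D a)‖
        = 2 * (sN k D : ℝ) * t k D := by
      simp only [offR]
      rw [← sub_smul, norm_smul, norm_vN e he, Real.norm_eq_abs,
        show sgR 1 * t k D - sgR 2 * t k D = 2 * t k D by simp [sgR]; ring,
        abs_of_pos (by positivity)]
      ring
    rw [hd] at h
    refine ⟨h.1, h.2.trans_eq ?_⟩
    ring
  -- colouring
  set L := colR k D with hLdef
  have hcol : ∀ a l, -(L : ℤ) ≤ ⌊w a l / t k D⌋ ∧ ⌊w a l / t k D⌋ ≤ L := by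
    intro a l
    have h1 : |w a l / t k D| ≤ (L : ℝ) := by
      rw [abs_div, abs_of_pos ht, div_le_iff₀ ht, hLdef, colR]
      push_cast
      refine le_trans ?_ (hsize a).2
      simpa [Real.norm_eq_abs] using PiLp.norm_apply_le (w a) l
    obtain ⟨h2, h3⟩ := abs_le.mp h1
    constructor
    · exact Int.le_floor.mpr (by push_cast; linarith)
    · have h4 : (⌊w a l / t k D⌋ : ℝ) ≤ ((L : ℤ) : ℝ) :=
        (Int.floor_le _).trans (by push_cast; linarith)
      exact_mod_cast h4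
  set col : Node k D → (Fin k → Fin (2 * colR k D + 1)) := fun a l =>
    ⟨(⌊w a l / t k D⌋ + L).toNat, by have := hcol a l; omega⟩ with hcoldef
  obtain ⟨a, b, hab, hc⟩ := exists_edge k D col
  have hclose : ‖w a - w b‖ ≤ ((k : ℝ) + 1) * t k D := by
    have hl : ∀ l, |(w a - w b) l| ≤ t k D := by
      intro l
      have h1 := congrArg Fin.val (congrFun hc l)
      simp only [hcoldef] at h1
      have := hcol a l; have := hcol b l
      have h2 : ⌊w a l / t k D⌋ = ⌊w b l / t k D⌋ := by omega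
      have h3 := Int.abs_sub_lt_one_of_floor_eq_floor h2
      rw [← sub_div, abs_div, abs_of_pos ht, div_lt_one ht] at h3
      simpa using h3.le
    rw [EuclideanSpace.norm_eq, Real.sqrt_le_iff]
    refine ⟨by positivity, ?_⟩
    calc ∑ l, ‖(w a - w b) l‖ ^ 2 ≤ ∑ _l : Fin k, t k D ^ 2 := by
          refine Finset.sum_le_sum fun l _ => ?_
          rw [Real.norm_eq_abs]
          gcongr
          exact hl l
      _ = (k : ℝ) * t k D ^ 2 := by simp
      _ ≤ (((k : ℝ) + 1) * t k D) ^ 2 := by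
          rw [mul_pow]; gcongr; nlinarith [(Nat.cast_nonneg k : (0:ℝ) ≤ k)]
  obtain ⟨r, hr0, hr1, hr⟩ := hC _ (num_lt k D b) _ (num_lt k D a) _ (num_lt k D b)
  have he2 : ‖(1 : ℝ) • vec e b.1 - (vec e b.1 + e 2)‖ ≤ 1 := by
    simp [norm_neg, he.1]
  have he3 : ‖(-1 : ℝ) • vec e a.1 - (vec e b.1 + e 2)‖ ≤ 3 := by
    have heq : (-1 : ℝ) • vec e a.1 - (vec e b.1 + e 2)
        = -((vec e a.1 + vec e b.1) + e 2) := by module
    rw [heq, norm_neg]
    refine (norm_add_le _ _).trans ?_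
    have := norm_edge e he a.1 b.1 hab
    rw [he.1]; linarith
  have d1 := hjun b b r hr0 hr1 1 (Or.inl rfl) 1 he2
  have d2 := hjun a b r hr0 hr1 (-1) (Or.inr rfl) 3 he3
  have n1 := hnear a _ (num_lt k D b) r hr0 hr1
  have n2 := hnear b _ (num_lt k D b) r hr0 hr1
  simp only [one_smul] at d1
  simp only [neg_smul, one_smul] at d2
  set A := gRow e k D f (j * G k D + num k D a)
    (((i * G k D + num k D b : ℕ) : ℝ) * W k D (q + 1) + r)
  set B' := gRow e k D f (j * G k D + num k D b)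
    (((i * G k D + num k D b : ℕ) : ℝ) * W k D (q + 1) + r)
  set Ca := gCol e k D f (i * G k D + num k D b)
    (((i * G k D + num k D b : ℕ) : ℝ) * W k D (q + 1) + r) ((j * G k D + num k D a : ℕ) : ℝ)
  set Cb := gCol e k D f (i * G k D + num k D b)
    (((i * G k D + num k D b : ℕ) : ℝ) * W k D (q + 1) + r) ((j * G k D + num k D b : ℕ) : ℝ)
  have hsum : ‖w a + w b‖ ≤ 15 * D * t k D := by
    have heq : w a + w b = -(A - w a) + -(B' - w b) + -(-A - Ca) + (B' - Cb) + -(Ca - Cb) := by abel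
    rw [heq]
    refine (norm_add_le _ _).trans ?_
    refine le_trans (add_le_add ((norm_add_le _ _).trans (add_le_add norm_add₃_le le_rfl)) le_rfl) ?_
    simp only [norm_neg]
    have h6 : t k D ≤ D * t k D := le_mul_of_one_le_left ht.le hD1
    linarith
  have h2w : 2 * ‖w a‖ ≤ ‖w a + w b‖ + ‖w a - w b‖ := by
    have : (2 : ℝ) • w a = (w a + w b) + (w a - w b) := by module
    have h := norm_add_le (w a + w b) (w a - w b)
    rw [← this, norm_smul] at h
    simpa using h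
  have := (hsize a).1
  have h7 : 4 * (sN k D : ℝ) * t k D ≤ (15 * D + (k + 1)) * t k D := by
    linarith
  have h8 := le_of_mul_le_mul_right h7 ht
  simp only [sN] at h8; push_cast at h8
  linarith [(Nat.cast_nonneg k : (0:ℝ) ≤ k)]

end

end Vale.Agent.P208
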