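import Mathlib
import Vale.Agent.P208.Junction

namespace Vale.Agent.P208

open scoped RealInnerProductSpace

noncomputable section

variable {E : Type*} [NormedAddCommGroup E] [InnerProductSpace ℝ E] (e : ℕ → E)
variable {K : Type*} [NormedAddCommGroup K] [InnerProductSpace ℝ K]

/-- The map induced on a child. -/
def childF (s : ℝ) (o : E) (f : E → K) : E → K := fun z => s⁻¹ • f (place s o z)

/-- Squared stretch of the bottom edge. -/
def phi (k D : ℕ) (f : E → K) (q : ℕ) : ℝ :=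
  ‖f (pt e (X k D q) 0 0) - f (pt e 0 0 0)‖ ^ 2 / (X k D q : ℝ) ^ 2

/-- Squared vertical stretch on one vertical line. -/
def vert (k D : ℕ) (f : E → K) (x : ℝ) : ℝ :=
  ‖f (pt e x (Y k D) 0) - f (pt e x 0 0)‖ ^ 2 / (Y k D : ℝ) ^ 2

/-- Averaged squared vertical stretch. -/
def psi (k D : ℕ) (f : E → K) (q : ℕ) : ℝ :=
  (∫ x in (0 : ℝ)..(X k D q), vert e k D f x) / (X k D q : ℝ)

lemma bil_child {D : ℕ} {S T : Set E} {f : E → K} (hf : BiL D S f) {s : ℝ} {o : E} (hs : 0 < s)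
    (hsub : place s o '' T ⊆ S) : BiL D T (childF s o f) := by
  intro z hz w hw
  have h := hf _ (hsub ⟨z, hz, rfl⟩) _ (hsub ⟨w, hw, rfl⟩)
  rw [place_sub, norm_smul, Real.norm_eq_abs, abs_of_pos hs] at h
  have heq : ‖childF s o f z - childF s o f w‖ = ‖f (place s o z) - f (place s o w)‖ / s := by
    simp only [childF, ← smul_sub, norm_smul, norm_inv, Real.norm_eq_abs, abs_of_pos hs]
    ring
  rw [heq, le_div_iff₀ hs, div_le_iff₀ hs]
  constructor <;> nlinarith [h.1, h.2]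

variable {k D : ℕ}

lemma gad_sub_R (p q : ℕ) (i : IR k D (q + 1)) :
    place (sR k D) (oR e k D (q + 1) i) '' Gad e k D p (Qn k D) ⊆ Gad e k D (p + 1) (q + 1) := by
  intro z hz
  rw [Gad]
  exact Or.inl (Set.mem_iUnion.mpr ⟨i, hz⟩)

lemma gad_sub_C (p q : ℕ) (i : IC k D (q + 1)) :
    place (sC k D) (oC e k D (q + 1) i) '' Gad e k D (p + 1) q ⊆ Gad e k D (p + 1) (q + 1) := by
  intro z hz
  rw [Gad]
  exact Or.inr (Set.mem_iUnion.mpr ⟨i, hz⟩)

variable (hD : 1 ≤ D)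
include hD

lemma phi_child_R (q : ℕ) (i : IR k D q) (f : E → K) :
    phi e k D (childF (sR k D) (oR e k D q i) f) (Qn k D)
      = ‖(t k D)⁻¹ • (f (pt e ((((i.1 : ℕ) + 1 : ℕ) : ℝ) * t k D) (yR k D i.2.1)
          (offR e k D i.2.2 i.2.1))
        - f (pt e ((i.1 : ℕ) * t k D) (yR k D i.2.1) (offR e k D i.2.2 i.2.1)))‖ ^ 2 := by
  have hs := sR_pos (k := k) hD
  have hX := Xpos' (k := k) hD (Qn k D)
  simp only [phi, childF, oR, place_pt, mul_zero, add_zero, smul_zero, sR_mul_X hD]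
  rw [← smul_sub, norm_smul, norm_smul, mul_pow, mul_pow, Nat.cast_add, Nat.cast_one, add_mul, one_mul]
  simp only [norm_inv, Real.norm_eq_abs, abs_of_pos hs, abs_of_pos (t_pos (k := k) hD)]
  rw [← sR_mul_X hD]
  field_simp

lemma phi_child_C (q : ℕ) (i : IC k D (q + 1)) (f : E → K) :
    phi e k D (childF (sC k D) (oC e k D (q + 1) i) f) q
      = ‖f (pt e ((i.1 : ℕ) * (W k D (q + 1) : ℝ) + W k D (q + 1)) (i.2.1 : ℕ)
          (offC e k D i.2.2 i.1))
        - f (pt e ((i.1 : ℕ) * (W k D (q + 1) : ℝ)) (i.2.1 : ℕ)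
          (offC e k D i.2.2 i.1))‖ ^ 2 / (W k D (q + 1) : ℝ) ^ 2 := by
  have hs := sC_pos (k := k) hD
  have hX := Xpos' (k := k) hD q
  simp only [phi, childF, oC, place_pt, mul_zero, add_zero, smul_zero, sC_mul_X hD]
  rw [← smul_sub, norm_smul, mul_pow]
  simp only [norm_inv, Real.norm_eq_abs, abs_of_pos hs]
  rw [← sC_mul_X hD]
  field_simp

lemma psi_child_C (q : ℕ) (i : IC k D (q + 1)) (f : E → K) :
    psi e k D (childF (sC k D) (oC e k D (q + 1) i) f) q
      = (∫ r in (0 : ℝ)..(W k D (q + 1)),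
          ‖f (pt e ((i.1 : ℕ) * (W k D (q + 1) : ℝ) + r) (((i.2.1 : ℕ) : ℝ) + 1)
              (offC e k D i.2.2 i.1))
            - f (pt e ((i.1 : ℕ) * (W k D (q + 1) : ℝ) + r) (i.2.1 : ℕ)
              (offC e k D i.2.2 i.1))‖ ^ 2) / (W k D (q + 1) : ℝ) := by
  have hs := sC_pos (k := k) hD
  have hY := Ypos' (k := k) hD
  have hX := Xpos' (k := k) hD q
  set g : ℝ → ℝ := fun r => ‖f (pt e ((i.1 : ℕ) * (W k D (q + 1) : ℝ) + r) (((i.2.1 : ℕ) : ℝ) + 1)
      (offC e k D i.2.2 i.1))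
    - f (pt e ((i.1 : ℕ) * (W k D (q + 1) : ℝ) + r) (i.2.1 : ℕ) (offC e k D i.2.2 i.1))‖ ^ 2
    with hg
  have hv : ∀ x, vert e k D (childF (sC k D) (oC e k D (q + 1) i) f) x = g (sC k D * x) := by
    intro x
    simp only [vert, childF, oC, place_pt, mul_zero, add_zero, smul_zero, sC_mul_Y hD, hg]
    rw [← smul_sub, norm_smul, mul_pow]
    simp only [norm_inv, Real.norm_eq_abs, abs_of_pos hs]
    have h1 := sC_mul_Y (k := k) hD
    field_simp
    linear_combination -(‖f (pt e ((i.1 : ℕ) * (W k D (q + 1) : ℝ) + sC k D * x) (((i.2.1 : ℕ) : ℝ) + 1)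
        (offC e k D i.2.2 i.1))
      - f (pt e ((i.1 : ℕ) * (W k D (q + 1) : ℝ) + sC k D * x) (i.2.1 : ℕ)
        (offC e k D i.2.2 i.1))‖ ^ 2) * (sC k D * (Y k D : ℝ) + 1) * h1
  simp only [psi, hv]
  rw [intervalIntegral.integral_comp_mul_left g hs.ne', mul_zero, sC_mul_X hD, smul_eq_mul]
  rw [← sC_mul_X hD]
  field_simp

variable (he : Orthonormal ℝ e)
include he

omit [InnerProductSpace ℝ K] in
lemma phi_le (p q : ℕ) {f : E → K} (hf : BiL D (Gad e k D p q) f) :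
    phi e k D f q ≤ (D : ℝ) ^ 2 := by
  have hX := Xpos' (k := k) hD q
  have h := (hf _ (gad_edges e hD p q _ hX.le le_rfl).1 _ (gad_edges e hD p q 0 le_rfl hX.le).1).2
  rw [norm_pt_sub_x e he, sub_zero, abs_of_pos hX] at h
  simp only [phi]
  rw [div_le_iff₀ (by positivity), ← mul_pow]
  gcongr

omit [InnerProductSpace ℝ K] in
lemma vert_le (p q : ℕ) {f : E → K} (hf : BiL D (Gad e k D p q) f) {x : ℝ} (h0 : 0 ≤ x)
    (h1 : x ≤ X k D q) : vert e k D f x ≤ (D : ℝ) ^ 2 := by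
  have hY := Ypos' (k := k) hD
  have h := (hf _ (gad_edges e hD p q x h0 h1).2 _ (gad_edges e hD p q x h0 h1).1).2
  rw [norm_pt_sub_y e he, sub_zero, abs_of_pos hY] at h
  simp only [vert]
  rw [div_le_iff₀ (by positivity), ← mul_pow]
  gcongr

omit [InnerProductSpace ℝ K] in
lemma line_cont {S : Set E} {f : E → K} (hf : BiL D S f) (y : ℝ) (u : E) (a : ℝ) {lo hi : ℝ}
    (hmem : ∀ r ∈ Set.Icc lo hi, pt e (a + r) y u ∈ S) :
    ContinuousOn (fun r => f (pt e (a + r) y u)) (Set.Icc lo hi) := by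
  refine (LipschitzOnWith.of_dist_le_mul (K := (D : NNReal)) fun r hr r' hr' => ?_).continuousOn
  have h := (hf _ (hmem r hr) _ (hmem r' hr')).2
  rw [norm_pt_sub_x e he, add_sub_add_left_eq_sub] at h
  rw [dist_eq_norm, Real.dist_eq]
  simpa using h

omit [InnerProductSpace ℝ K] in
lemma vert_cont (p q : ℕ) {f : E → K} (hf : BiL D (Gad e k D p q) f) :
    ContinuousOn (vert e k D f) (Set.Icc 0 (X k D q)) := by
  have h1 := line_cont e hD he hf (Y k D) 0 0 (lo := 0) (hi := X k D q)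
    (fun r hr => by simpa using (gad_edges e hD p q r hr.1 hr.2).2)
  have h2 := line_cont e hD he hf 0 0 0 (lo := 0) (hi := X k D q)
    (fun r hr => by simpa using (gad_edges e hD p q r hr.1 hr.2).1)
  simp only [zero_add] at h1 h2
  unfold vert
  exact ((h1.sub h2).norm.pow 2).div_const _

omit [InnerProductSpace ℝ K] in
lemma psi_le (p q : ℕ) {f : E → K} (hf : BiL D (Gad e k D p q) f) :
    psi e k D f q ≤ (D : ℝ) ^ 2 := by
  have hX := Xpos' (k := k) hD q
  simp only [psi]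
  rw [div_le_iff₀ hX]
  have := intervalIntegral.integral_mono_on hX.le
    ((vert_cont e hD he p q hf).intervalIntegrable_of_Icc hX.le)
    (intervalIntegrable_const (μ := MeasureTheory.volume) (c := (D : ℝ) ^ 2)) (fun x hx => vert_le e hD he p q hf hx.1 hx.2)
  rwa [intervalIntegral.integral_const, smul_eq_mul, sub_zero, mul_comm] at this

end

end Vale.Agent.P208
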