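import Mathlib
import Vale.Agent.P208.Potential

namespace Vale.Agent.P208

open scoped RealInnerProductSpace

noncomputable section

variable {E : Type*} [NormedAddCommGroup E] [InnerProductSpace ℝ E] (e : ℕ → E)
variable {k D : ℕ}

/-- Values along a row line at grid points. -/
def aLine {K : Type*} (f : E → K) (k D : ℕ) (l : Fin (Y k D + 1) × Fin 3) (j : ℕ) : K :=
  f (pt e ((j : ℝ) * t k D) (yR k D l.1) (offR e k D l.2 l.1))

/-- Slope vector of a piece of a row line. -/
def dLine (f : E → EuclideanSpace ℝ (Fin k)) (k' D : ℕ) (l : Fin (Y k' D + 1) × Fin 3) (j : ℕ) :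
    EuclideanSpace ℝ (Fin k) :=
  (t k' D)⁻¹ • (aLine e f k' D l (j + 1) - aLine e f k' D l j)

/-- Average slope vector of a row line. -/
def mLine (f : E → EuclideanSpace ℝ (Fin k)) (k' D q : ℕ) (l : Fin (Y k' D + 1) × Fin 3) :
    EuclideanSpace ℝ (Fin k) :=
  ((X k' D q : ℝ))⁻¹ • (aLine e f k' D l (npc k' D q) - aLine e f k' D l 0)

/-- Blocks with a badly deviating piece. -/
def badBlocks (f : E → EuclideanSpace ℝ (Fin k)) (k' D q : ℕ) : Finset (Fin (Mx k' D q)) :=
  open scoped Classical in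
  Finset.univ.filter (fun i => ∃ l : Fin (Y k' D + 1) × Fin 3,
    ∃ j < G k' D * W k' D q * M k' D, theta k' D q <
      ‖dLine e f k' D l ((i : ℕ) * (G k' D * W k' D q * M k' D) + j) - mLine e f k' D q l‖)

variable (hD : 1 ≤ D) (he : Orthonormal ℝ e)
include hD he

variable {f : E → EuclideanSpace ℝ (Fin k)}

lemma aLine_mem (p q : ℕ) (l : Fin (Y k D + 1) × Fin 3) {j : ℕ} (hj : j ≤ npc k D (q + 1)) :
    pt e ((j : ℝ) * t k D) (yR k D l.1) (offR e k D l.2 l.1) ∈ Gad e k D (p + 1) (q + 1) := by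
  refine row_mem e hD p q l.1 l.2 (by have := t_pos (k := k) hD; positivity) ?_
  rw [← npc_mul_t hD]
  have := t_pos (k := k) hD
  gcongr

lemma mLine_norm (p q : ℕ) (hf : BiL D (Gad e k D (p + 1) (q + 1)) f)
    (l : Fin (Y k D + 1) × Fin 3) :
    ‖mLine e f k D (q + 1) l‖ ≤ D ∧
    ‖f (pt e (X k D (q + 1)) 0 0) - f (pt e 0 0 0)‖ / (X k D (q + 1) : ℝ)
      - 2 * D * ((Y k D : ℝ) + 1) / (X k D (q + 1) : ℝ) ≤ ‖mLine e f k D (q + 1) l‖ := by
  have hX := Xpos' (k := k) hD (q + 1)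
  have h0 : aLine e f k D l 0 = f (pt e 0 (yR k D l.1) (offR e k D l.2 l.1)) := by simp [aLine]
  have hP : aLine e f k D l (npc k D (q + 1))
      = f (pt e (X k D (q + 1)) (yR k D l.1) (offR e k D l.2 l.1)) := by
    simp only [aLine]; rw [npc_mul_t hD]
  have m0 : pt e 0 (yR k D l.1) (offR e k D l.2 l.1) ∈ Gad e k D (p + 1) (q + 1) :=
    row_mem e hD p q l.1 l.2 le_rfl hX.le
  have mP : pt e (X k D (q + 1)) (yR k D l.1) (offR e k D l.2 l.1) ∈ Gad e k D (p + 1) (q + 1) :=
    row_mem e hD p q l.1 l.2 hX.le le_rfl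
  have eg := gad_edges e (k := k) hD (p + 1) (q + 1)
  have hm : ‖mLine e f k D (q + 1) l‖
      = ‖aLine e f k D l (npc k D (q + 1)) - aLine e f k D l 0‖ / (X k D (q + 1) : ℝ) := by
    rw [mLine, norm_smul, norm_inv, Real.norm_eq_abs, abs_of_pos hX]; ring
  rw [hm, h0, hP]
  constructor
  · rw [div_le_iff₀ hX]
    have h := (hf _ mP _ m0).2
    rwa [norm_pt_sub_x e he, sub_zero, abs_of_pos hX] at h
  · have hd : ∀ x, ‖pt e x 0 0 - pt e x (yR k D l.1) (offR e k D l.2 l.1)‖ ≤ (Y k D : ℝ) + 1 := by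
      intro x
      rw [pt_sub, pt, sub_self, zero_smul, zero_add, zero_sub, zero_sub]
      refine (norm_add_le _ _).trans ?_
      rw [norm_smul, norm_neg, he.1, mul_one, norm_neg, Real.norm_eq_abs,
        abs_of_nonneg (yR_nonneg hD _)]
      have h1 := norm_offR (k := k) e hD he l.2 l.1
      have h2 := yR_top (k := k) hD l.1
      have : 0 ≤ (Y k D : ℝ) * sR k D := mul_nonneg (Nat.cast_nonneg _) (sR_pos hD).le
      linarith
    have a := (hf _ (eg _ hX.le le_rfl).1 _ mP).2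
    have b := (hf _ (eg 0 le_rfl hX.le).1 _ m0).2
    have a' := a.trans (mul_le_mul_of_nonneg_left (hd _) (Nat.cast_nonneg _))
    have b' := b.trans (mul_le_mul_of_nonneg_left (hd _) (Nat.cast_nonneg _))
    rw [← sub_div, div_le_div_iff_of_pos_right hX]
    set A := f (pt e (X k D (q + 1)) 0 0)
    set B := f (pt e 0 0 0)
    set A' := f (pt e (X k D (q + 1)) (yR k D l.1) (offR e k D l.2 l.1))
    set B' := f (pt e 0 (yR k D l.1) (offR e k D l.2 l.1))
    have : A - B = (A - A') + (A' - B') + -(B - B') := by abel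
    have h3 : ‖A - B‖ ≤ ‖A - A'‖ + ‖A' - B'‖ + ‖B - B'‖ := by
      rw [this]; refine norm_add₃_le.trans ?_; rw [norm_neg]
    linarith

lemma mLine_sq (p q : ℕ) (hf : BiL D (Gad e k D (p + 1) (q + 1)) f)
    (l : Fin (Y k D + 1) × Fin 3) :
    phi e k D f (q + 1) - Gam k D (q + 1) / 4 ≤ ‖mLine e f k D (q + 1) l‖ ^ 2 := by
  obtain ⟨h1, h2⟩ := mLine_norm e hD he p q hf l
  have hX := Xpos' (k := k) hD (q + 1)
  have hD' : (0 : ℝ) ≤ D := Nat.cast_nonneg _
  have hphi := phi_le e hD he (p + 1) (q + 1) hf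
  have hb : ‖f (pt e (X k D (q + 1)) 0 0) - f (pt e 0 0 0)‖ / (X k D (q + 1) : ℝ) ≤ D := by
    have : (‖f (pt e (X k D (q + 1)) 0 0) - f (pt e 0 0 0)‖ / (X k D (q + 1) : ℝ)) ^ 2
        ≤ (D : ℝ) ^ 2 := by rw [div_pow]; exact hphi
    exact (pow_le_pow_iff_left₀ (by positivity) hD' (by norm_num)).mp this
  have h := sq_lower (norm_nonneg _) h1 hb
    (show (0 : ℝ) ≤ 2 * D * ((Y k D : ℝ) + 1) / (X k D (q + 1) : ℝ) by positivity) h2 (by positivity)
  have hl := loss_eq (k := k) hD (q + 1)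
  have hY := Y_X (k := k) hD (q + 1)
  have hG := Gam_pos (k := k) hD (q + 1)
  have hY' := mul_le_mul_of_nonneg_left hY (show (0 : ℝ) ≤ 4 * D ^ 2 by positivity)
  simp only [phi, ← div_pow]
  have e1 : 2 * (D : ℝ) * (2 * D * ((Y k D : ℝ) + 1) / (X k D (q + 1) : ℝ))
      = 4 * (D : ℝ) ^ 2 * (((Y k D : ℝ) + 1) / (X k D (q + 1) : ℝ)) := by ring
  have e2 : 4 * (D : ℝ) ^ 2 * (2 / (W k D (q + 1 + 1) : ℝ))
      = 8 * (D : ℝ) ^ 2 / (W k D (q + 1 + 1) : ℝ) := by ring
  rw [e1] at h
  rw [e2, hl] at hY'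
  linarith

/-- Many exceptional blocks give a horizontal gain. -/
lemma gain_R (p q : ℕ) (hf : BiL D (Gad e k D (p + 1) (q + 1)) f)
    (hbad : mu k D * (Mx k D (q + 1) : ℝ) ≤ ((badBlocks e f k D (q + 1)).card : ℝ)) :
    ∃ i : IR k D (q + 1), phi e k D f (q + 1) + 3 / 2 * Gam k D (q + 1)
      ≤ phi e k D (childF (sR k D) (oR e k D (q + 1) i) f) (Qn k D) := by
  classical
  set P := npc k D (q + 1) with hP
  set B := G k D * W k D (q + 1) * M k D with hB
  have ht := t_pos (k := k) hD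
  have hth : 0 ≤ theta k D (q + 1) := by simp only [theta]; positivity
  have hPB : Mx k D (q + 1) * B = P := by
    rw [hP, npc, ← ncol_mul_W k D (q + 1), ncol, hB]; ring
  have hPpos : 0 < P := Nat.mul_pos (X_pos hD _) (M_pos hD)
  have hPX : (P : ℝ) * t k D = X k D (q + 1) := npc_mul_t hD _
  -- variance on each line
  have hvar : ∀ l, ∑ j ∈ Finset.range P, ‖dLine e f k D l j‖ ^ 2
      = (P : ℝ) * ‖mLine e f k D (q + 1) l‖ ^ 2
        + ∑ j ∈ Finset.range P, ‖dLine e f k D l j - mLine e f k D (q + 1) l‖ ^ 2 := by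
    intro l
    have h := variance_id (Finset.range P) (fun j => dLine e f k D l j) (mLine e f k D (q + 1) l) (by
      simp only [dLine, mLine, ← Finset.smul_sum, Finset.card_range, smul_smul]
      rw [Finset.sum_range_sub (fun j => aLine e f k D l j) P, ← hPX]
      congr 1
      have : (P : ℝ) ≠ 0 := by exact_mod_cast hPpos.ne'
      field_simp)
    simpa using h
  -- collect bad pieces
  have hsel : ∀ i ∈ badBlocks e f k D (q + 1), ∃ x : (Fin (Y k D + 1) × Fin 3) × ℕ,
      (i : ℕ) * B ≤ x.2 ∧ x.2 < (i : ℕ) * B + B ∧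
      theta k D (q + 1) < ‖dLine e f k D x.1 x.2 - mLine e f k D (q + 1) x.1‖ := by
    intro i hi
    simp only [badBlocks, Finset.mem_filter] at hi
    obtain ⟨l, j, hj, h⟩ := hi.2
    exact ⟨(l, (i : ℕ) * B + j), Nat.le_add_right _ _, Nat.add_lt_add_left hj _, h⟩
  choose! sel hsel1 hsel2 hsel3 using hsel
  have hinj : Set.InjOn sel (badBlocks e f k D (q + 1) : Set (Fin (Mx k D (q + 1)))) := by
    intro a ha b hb hab
    have a1 := hsel1 a ha; have a2 := hsel2 a ha
    have b1 := hsel1 b hb; have b2 := hsel2 b hb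
    rw [hab] at a1 a2
    apply Fin.ext
    rcases lt_trichotomy (a : ℕ) b with h | h | h
    · have : ((a : ℕ) + 1) * B ≤ (b : ℕ) * B := Nat.mul_le_mul_right _ h
      rw [Nat.succ_mul] at this; omega
    · exact h
    · have : ((b : ℕ) + 1) * B ≤ (a : ℕ) * B := Nat.mul_le_mul_right _ h
      rw [Nat.succ_mul] at this; omega
  have hsum : ((badBlocks e f k D (q + 1)).card : ℝ) * theta k D (q + 1) ^ 2
      ≤ ∑ x ∈ (Finset.univ : Finset (Fin (Y k D + 1) × Fin 3)) ×ˢ Finset.range P,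
        ‖dLine e f k D x.1 x.2 - mLine e f k D (q + 1) x.1‖ ^ 2 := by
    calc ((badBlocks e f k D (q + 1)).card : ℝ) * theta k D (q + 1) ^ 2
        = ∑ _i ∈ badBlocks e f k D (q + 1), theta k D (q + 1) ^ 2 := by simp
      _ ≤ ∑ i ∈ badBlocks e f k D (q + 1),
          ‖dLine e f k D (sel i).1 (sel i).2 - mLine e f k D (q + 1) (sel i).1‖ ^ 2 := by
          refine Finset.sum_le_sum fun i hi => ?_
          gcongr
          exact (hsel3 i hi).le
      _ = ∑ x ∈ (badBlocks e f k D (q + 1)).image sel,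
          ‖dLine e f k D x.1 x.2 - mLine e f k D (q + 1) x.1‖ ^ 2 := by rw [Finset.sum_image hinj]
      _ ≤ _ := by
          refine Finset.sum_le_sum_of_subset_of_nonneg ?_ (fun _ _ _ => by positivity)
          intro x hx
          obtain ⟨i, hi, rfl⟩ := Finset.mem_image.mp hx
          have h1 : ((i : ℕ) + 1) * B ≤ Mx k D (q + 1) * B := Nat.mul_le_mul_right _ i.2
          rw [Nat.succ_mul, hPB] at h1
          simp only [Finset.mem_product, Finset.mem_univ, true_and, Finset.mem_range]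
          have := hsel2 i hi
          omega
  rw [Finset.sum_product] at hsum
  have hne : ((Finset.univ : Finset (Fin (Y k D + 1) × Fin 3)) ×ˢ Finset.range P).Nonempty :=
    ⟨((0, 0), 0), by simp [hPpos]⟩
  obtain ⟨⟨l, j⟩, hmem, hbest⟩ := Finset.exists_le_of_sum_le
    (f := fun _ => phi e k D f (q + 1) + 3 / 2 * Gam k D (q + 1))
    (g := fun x : (Fin (Y k D + 1) × Fin 3) × ℕ => ‖dLine e f k D x.1 x.2‖ ^ 2) hne (by
    rw [Finset.sum_product, Finset.sum_product]
    simp only [hvar, Finset.sum_const, Finset.card_range, nsmul_eq_mul, Finset.sum_add_distrib]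
    have h1 : ∀ l : Fin (Y k D + 1) × Fin 3, (P : ℝ) * (phi e k D f (q + 1) - Gam k D (q + 1) / 4)
        ≤ (P : ℝ) * ‖mLine e f k D (q + 1) l‖ ^ 2 := fun l =>
      mul_le_mul_of_nonneg_left (mLine_sq e hD he p q hf l) (Nat.cast_nonneg _)
    have h2 := Finset.sum_le_sum (s := Finset.univ) fun l _ => h1 l
    have hcard : (Finset.univ : Finset (Fin (Y k D + 1) × Fin 3)).card = (Y k D + 1) * 3 := by simp
    rw [Finset.sum_const, hcard, nsmul_eq_mul] at h2
    rw [hcard]
    push_cast at h2 ⊢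
    have key : ((Y k D : ℝ) + 1) * 3 * ((P : ℝ) * (2 * Gam k D (q + 1)))
        = mu k D * (Mx k D (q + 1) : ℝ) * theta k D (q + 1) ^ 2 := by
      have hG : (0 : ℝ) < G k D := by exact_mod_cast G_pos k D
      have hM : (0 : ℝ) < M k D := by exact_mod_cast M_pos hD
      have hW := Wpos' (k := k) hD (q + 1)
      have hD0 : (0 : ℝ) < D := by exact_mod_cast hD
      have hYp := Ypos' (k := k) hD
      have hPc : (P : ℝ) = (Mx k D (q + 1) : ℝ) * ((G k D : ℝ) * W k D (q + 1) * M k D) := by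
        rw [← hPB, hB]; push_cast; ring
      rw [hPc]
      simp only [Gam, mu, theta, t, C0]; push_cast; field_simp; ring
    have h3 := mul_le_mul_of_nonneg_right hbad (sq_nonneg (theta k D (q + 1)))
    have h4 : 0 ≤ ((Y k D : ℝ) + 1) * 3 * ((P : ℝ) * Gam k D (q + 1)) := by
      exact mul_nonneg (mul_nonneg (add_nonneg (Nat.cast_nonneg _) zero_le_one) (by norm_num))
        (mul_nonneg (Nat.cast_nonneg _) (Gam_pos hD _).le)
    linarith)
  simp only [Finset.mem_product, Finset.mem_range] at hmem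
  refine ⟨(⟨j, hmem.2⟩, l.1, l.2), ?_⟩
  rw [phi_child_R e hD]
  exact hbest

lemma good_piece {q : ℕ} {i : Fin (Mx k D q)} (hi : i ∉ badBlocks e f k D q)
    (l : Fin (Y k D + 1) × Fin 3) {j : ℕ} (hj : j < G k D * W k D q * M k D) :
    ‖dLine e f k D l ((i : ℕ) * (G k D * W k D q * M k D) + j) - mLine e f k D q l‖
      ≤ theta k D q := by
  classical
  by_contra h
  exact hi (Finset.mem_filter.mpr ⟨Finset.mem_univ _, l, j, hj, not_le.mp h⟩)

lemma theta_le (q : ℕ) : theta k D q ≤ 1 / (W k D q : ℝ) := by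
  have hG : (1 : ℝ) ≤ G k D := by exact_mod_cast G_pos k D
  have hW := Wpos' (k := k) hD q
  have ht := t_le (k := k) hD
  simp only [theta]
  rw [div_le_div_iff₀ (by positivity) hW]
  nlinarith

/-- Row differences are almost constant in a good block. -/
lemma row_const (p q : ℕ) (hf : BiL D (Gad e k D (p + 1) (q + 1)) f)
    {i : Fin (Mx k D (q + 1))} (hi : i ∉ badBlocks e f k D (q + 1)) :
    ∀ n < Y k D, ∀ l ≤ G k D * W k D (q + 1) * M k D,
      ‖gRow e k D f n ((((i : ℕ) * (G k D * W k D (q + 1) * M k D) + l : ℕ) : ℝ) * t k D)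
        - gRow e k D f n ((((i : ℕ) * (G k D * W k D (q + 1) * M k D) : ℕ) : ℝ) * t k D)‖
        ≤ t k D := by
  intro n hn l hl
  set B := G k D * W k D (q + 1) * M k D with hB
  have ht := t_pos (k := k) hD
  have hX := Xpos' (k := k) hD (q + 1)
  have hn' : n < Y k D + 1 := by omega
  set l1 : Fin (Y k D + 1) × Fin 3 := (⟨n, hn'⟩, 1) with hl1
  set l2 : Fin (Y k D + 1) × Fin 3 := (⟨n, hn'⟩, 2) with hl2
  set g : ℕ → EuclideanSpace ℝ (Fin k) := fun j =>
    gRow e k D f n ((((i : ℕ) * B + j : ℕ) : ℝ) * t k D) with hg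
  have hga : ∀ j, g j = aLine e f k D l1 ((i : ℕ) * B + j) - aLine e f k D l2 ((i : ℕ) * B + j) := by
    intro j; simp [hg, gRow, aLine, hl1, hl2, yR, hn]
  have hmm : ‖mLine e f k D (q + 1) l1 - mLine e f k D (q + 1) l2‖
      ≤ D / (X k D (q + 1) : ℝ) := by
    simp only [mLine, ← smul_sub, norm_smul, norm_inv, Real.norm_eq_abs, abs_of_pos hX]
    rw [inv_mul_eq_div, div_le_div_iff_of_pos_right hX, sub_sub_sub_comm]
    refine (norm_sub_le _ _).trans ?_
    have key : ∀ j ≤ npc k D (q + 1), ‖aLine e f k D l1 j - aLine e f k D l2 j‖ ≤ D * (1 / 2) := by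
      intro j hj
      refine ((hf _ (aLine_mem e hD he p q l1 hj) _ (aLine_mem e hD he p q l2 hj)).2).trans ?_
      refine mul_le_mul_of_nonneg_left ?_ (Nat.cast_nonneg _)
      simp only [hl1, hl2]
      rw [pt_sub, pt, sub_self, sub_self, zero_smul, zero_smul, zero_add, zero_add]
      refine (norm_sub_le _ _).trans ?_
      have h1 := norm_offR (k := k) e hD he 1 n
      have h2 := norm_offR (k := k) e hD he 2 n
      linarith
    have := key _ le_rfl
    have := key 0 (Nat.zero_le _)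
    linarith
  have hstep : ∀ j < B, ‖g (j + 1) - g j‖
      ≤ t k D * (2 * theta k D (q + 1) + D / (X k D (q + 1) : ℝ)) := by
    intro j hj
    have h1 := good_piece e hD he hi l1 hj
    have h2 := good_piece e hD he hi l2 hj
    rw [← hB] at h1 h2
    have heq : g (j + 1) - g j
        = t k D • ((dLine e f k D l1 ((i : ℕ) * B + j) - mLine e f k D (q + 1) l1)
          - (dLine e f k D l2 ((i : ℕ) * B + j) - mLine e f k D (q + 1) l2)
          + (mLine e f k D (q + 1) l1 - mLine e f k D (q + 1) l2)) := by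
      rw [hga, hga]
      simp only [dLine, ← Nat.add_assoc]
      rw [show ∀ a b c d : EuclideanSpace ℝ (Fin k),
        a - c - (b - d) + (c - d) = a - b from fun a b c d => by abel, ← smul_sub,
        smul_inv_smul₀ ht.ne']
      abel
    rw [heq, norm_smul, Real.norm_eq_abs, abs_of_pos ht]
    gcongr
    refine (norm_add_le _ _).trans ?_
    have := norm_sub_le (dLine e f k D l1 ((i : ℕ) * B + j) - mLine e f k D (q + 1) l1)
      (dLine e f k D l2 ((i : ℕ) * B + j) - mLine e f k D (q + 1) l2)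
    linarith
  have hsum : ‖g l - g 0‖ ≤ (B : ℝ) * (t k D * (2 * theta k D (q + 1) + D / (X k D (q + 1) : ℝ))) := by
    rw [← Finset.sum_range_sub]
    refine (norm_sum_le _ _).trans ?_
    calc ∑ j ∈ Finset.range l, ‖g (j + 1) - g j‖
        ≤ ∑ j ∈ Finset.range l, t k D * (2 * theta k D (q + 1) + D / (X k D (q + 1) : ℝ)) :=
          Finset.sum_le_sum fun j hj => hstep j (lt_of_lt_of_le (Finset.mem_range.mp hj) hl)
      _ ≤ _ := by
          rw [Finset.sum_const, Finset.card_range, nsmul_eq_mul]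
          have : 0 ≤ t k D * (2 * theta k D (q + 1) + D / (X k D (q + 1) : ℝ)) := by
            have : 0 ≤ theta k D (q + 1) := by simp only [theta]; positivity
            positivity
          gcongr
  have hval : (B : ℝ) * (t k D * (2 * theta k D (q + 1) + D / (X k D (q + 1) : ℝ)))
      = t k D / 2 + D / (Mx k D (q + 1) : ℝ) := by
    have hG : (0 : ℝ) < G k D := by exact_mod_cast G_pos k D
    have hW := Wpos' (k := k) hD (q + 1)
    have hMx : (0 : ℝ) < Mx k D (q + 1) := lt_of_lt_of_le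
      (by exact_mod_cast My_pos (k := k) hD) (My_le_Mx hD (q + 1))
    have hXc : (X k D (q + 1) : ℝ) = (Mx k D (q + 1) : ℝ) * G k D * W k D (q + 1) := by
      rw [← ncol_mul_W k D (q + 1)]; simp only [ncol]; push_cast; ring
    have hMt := M_eq (k := k) hD
    have hBt : (B : ℝ) * t k D = (G k D : ℝ) * W k D (q + 1) := by
      rw [hB]; push_cast; rw [mul_assoc, hMt, mul_one]
    rw [← mul_assoc, hBt, hXc, theta]
    field_simp
    ring
  have hsmall : (D : ℝ) / (Mx k D (q + 1) : ℝ) ≤ t k D / 2 := by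
    have h1 := two_DM_le_My (k := k) hD
    have h2 := My_le_Mx (k := k) hD (q + 1)
    have hM : (0 : ℝ) < M k D := by exact_mod_cast M_pos hD
    have hMx : (0 : ℝ) < Mx k D (q + 1) := lt_of_lt_of_le
      (by exact_mod_cast My_pos (k := k) hD) h2
    simp only [t]
    rw [div_div, div_le_div_iff₀ hMx (by positivity)]
    linarith
  have h0 : g 0 = gRow e k D f n ((((i : ℕ) * B : ℕ) : ℝ) * t k D) := by simp [hg]
  rw [h0] at hsum
  exact hsum.trans (by linarith)

/-- In a good block the column children lose little horizontally. -/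
lemma col_phi (p q : ℕ) (hf : BiL D (Gad e k D (p + 1) (q + 1)) f)
    {i : Fin (Mx k D (q + 1))} (hi : i ∉ badBlocks e f k D (q + 1))
    (c : IC k D (q + 1)) (hc1 : (i : ℕ) * G k D ≤ c.1) (hc2 : (c.1 : ℕ) < (i : ℕ) * G k D + G k D) :
    phi e k D f (q + 1) - Gam k D (q + 1) / 4 - Gam k D q / 4
      ≤ phi e k D (childF (sC k D) (oC e k D (q + 1) c) f) q := by
  have ht := t_pos (k := k) hD
  have hW := Wpos' (k := k) hD (q + 1)
  have hn : (c.2.1 : ℕ) < Y k D + 1 := by omega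
  set l : Fin (Y k D + 1) × Fin 3 := (⟨c.2.1, hn⟩, 0) with hl
  set WM := W k D (q + 1) * M k D with hWM
  set j0 := (c.1 : ℕ) * WM with hj0
  have hWMt : (WM : ℝ) * t k D = W k D (q + 1) := by
    rw [hWM]; push_cast; rw [mul_assoc, M_eq hD, mul_one]
  have hpieces : ∀ j ∈ Finset.range WM,
      ‖dLine e f k D l (j0 + j) - mLine e f k D (q + 1) l‖ ≤ theta k D (q + 1) := by
    intro j hj
    obtain ⟨b, hb⟩ := Nat.exists_eq_add_of_le hc1
    have hbG : b < G k D := by omega
    have hlt : b * WM + j < G k D * W k D (q + 1) * M k D := by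
      have : (b + 1) * WM ≤ G k D * WM := Nat.mul_le_mul_right _ hbG
      rw [Nat.succ_mul] at this
      rw [Nat.mul_assoc, ← hWM]
      have := Finset.mem_range.mp hj
      omega
    have := good_piece e hD he hi l hlt
    convert this using 4
    rw [hj0, hb, hWM]; ring
  have hsum : ∑ j ∈ Finset.range WM, dLine e f k D l (j0 + j)
      = (t k D)⁻¹ • (aLine e f k D l (j0 + WM) - aLine e f k D l j0) := by
    simp only [dLine, ← Finset.smul_sum]
    congr 1
    have := Finset.sum_range_sub (fun j => aLine e f k D l (j0 + j)) WM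
    simpa [Nat.add_assoc] using this
  set m := mLine e f k D (q + 1) l with hm
  have hlow : (W k D (q + 1) : ℝ) * (‖m‖ - theta k D (q + 1))
      ≤ ‖aLine e f k D l (j0 + WM) - aLine e f k D l j0‖ := by
    have heq : aLine e f k D l (j0 + WM) - aLine e f k D l j0
        = (W k D (q + 1) : ℝ) • m + t k D • ∑ j ∈ Finset.range WM, (dLine e f k D l (j0 + j) - m) := by
      rw [Finset.sum_sub_distrib, hsum, Finset.sum_const, Finset.card_range, smul_sub,
        smul_inv_smul₀ ht.ne', ← Nat.cast_smul_eq_nsmul ℝ, smul_smul, mul_comm (t k D), hWMt]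
      abel
    have h1 : ‖t k D • ∑ j ∈ Finset.range WM, (dLine e f k D l (j0 + j) - m)‖
        ≤ (W k D (q + 1) : ℝ) * theta k D (q + 1) := by
      rw [norm_smul, Real.norm_eq_abs, abs_of_pos ht, ← hWMt]
      calc t k D * ‖∑ j ∈ Finset.range WM, (dLine e f k D l (j0 + j) - m)‖
          ≤ t k D * ∑ _j ∈ Finset.range WM, theta k D (q + 1) := by
            gcongr
            exact (norm_sum_le _ _).trans (Finset.sum_le_sum hpieces)
        _ = _ := by rw [Finset.sum_const, Finset.card_range, nsmul_eq_mul]; ring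
    have h2 := norm_sub_norm_le ((W k D (q + 1) : ℝ) • m)
      (-(t k D • ∑ j ∈ Finset.range WM, (dLine e f k D l (j0 + j) - m)))
    rw [sub_neg_eq_add, ← heq, norm_neg, norm_smul, Real.norm_eq_abs, abs_of_pos hW] at h2
    linarith
  rw [phi_child_C e hD]
  set x0 := ((c.1 : ℕ) : ℝ) * (W k D (q + 1) : ℝ) with hx0
  have hxa : ((j0 : ℕ) : ℝ) * t k D = x0 := by
    rw [hj0, hx0]; push_cast; rw [mul_assoc, hWMt]
  have hxb : ((j0 + WM : ℕ) : ℝ) * t k D = x0 + W k D (q + 1) := by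
    push_cast; rw [add_mul, hxa, hWMt]
  have ha : aLine e f k D l j0 = f (pt e x0 ((c.2.1 : ℕ) : ℝ) 0) := by
    simp only [aLine, hxa]; simp [hl, yR, offR, sgR]
  have hb : aLine e f k D l (j0 + WM) = f (pt e (x0 + W k D (q + 1)) ((c.2.1 : ℕ) : ℝ) 0) := by
    simp only [aLine, hxb]; simp [hl, yR, offR, sgR]
  rw [ha, hb] at hlow
  have hjP : j0 + WM ≤ npc k D (q + 1) := by
    have : ((c.1 : ℕ) + 1) * WM ≤ ncol k D (q + 1) * WM := Nat.mul_le_mul_right _ c.1.2
    rw [Nat.succ_mul] at this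
    rw [npc, ← ncol_mul_W k D (q + 1), Nat.mul_assoc, ← hWM]
    omega
  have b0 := aLine_mem e hD he p q l (j := j0) (by omega)
  have b1 := aLine_mem e hD he p q l (j := j0 + WM) hjP
  rw [hxa] at b0; rw [hxb] at b1
  simp only [hl, yR, c.2.1.2, if_true, offR, sgR, Matrix.cons_val_zero, zero_mul, zero_smul] at b0 b1
  have c0 := (col_mem e hD p q c.1 c.2.1 c.2.2 le_rfl hW.le).1
  have c1 := (col_mem e hD p q c.1 c.2.1 c.2.2 hW.le le_rfl).1
  rw [add_zero] at c0
  rw [← hx0] at c0 c1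
  have hd : ∀ x, ‖pt e x ((c.2.1 : ℕ) : ℝ) 0 - pt e x ((c.2.1 : ℕ) : ℝ) (offC e k D c.2.2 c.1)‖
      ≤ 1 / 128 := by
    intro x
    rw [pt_sub, pt, sub_self, sub_self, zero_smul, zero_smul, zero_add, zero_add, zero_sub, norm_neg]
    exact norm_offC e hD he _ _
  have u1 := ((hf _ b1 _ c1).2).trans (mul_le_mul_of_nonneg_left (hd _) (Nat.cast_nonneg _))
  have u0 := ((hf _ b0 _ c0).2).trans (mul_le_mul_of_nonneg_left (hd _) (Nat.cast_nonneg _))
  set A := f (pt e (x0 + W k D (q + 1)) ((c.2.1 : ℕ) : ℝ) 0)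
  set B := f (pt e x0 ((c.2.1 : ℕ) : ℝ) 0)
  set A' := f (pt e (x0 + W k D (q + 1)) ((c.2.1 : ℕ) : ℝ) (offC e k D c.2.2 c.1))
  set B' := f (pt e x0 ((c.2.1 : ℕ) : ℝ) (offC e k D c.2.2 c.1))
  have hA'B' : ‖A' - B'‖ ≤ D * W k D (q + 1) := by
    refine (hf _ c1 _ c0).2.trans ?_
    rw [norm_pt_sub_x e he, add_sub_cancel_left, abs_of_pos hW]
  have h3 : ‖A - B‖ ≤ ‖A - A'‖ + ‖A' - B'‖ + ‖B - B'‖ := by
    have : A - B = (A - A') + (A' - B') + -(B - B') := by abel
    rw [this]; refine norm_add₃_le.trans ?_; rw [norm_neg]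
  rw [← div_pow]
  obtain ⟨hmD, -⟩ := mLine_norm e hD he p q hf l
  have hlow2 : ‖m‖ - (theta k D (q + 1) + D / (W k D (q + 1) : ℝ))
      ≤ ‖A' - B'‖ / (W k D (q + 1) : ℝ) := by
    rw [le_div_iff₀ hW]
    have : (D : ℝ) / (W k D (q + 1) : ℝ) * W k D (q + 1) = D := by field_simp
    nlinarith
  have hth : 0 ≤ theta k D (q + 1) := by simp only [theta]; positivity
  have hsq := sq_lower (D := (D : ℝ)) (div_nonneg (norm_nonneg _) hW.le)
    (by rw [div_le_iff₀ hW]; exact hA'B') hmD (by positivity) hlow2 (norm_nonneg _)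
  have hm2 := mLine_sq e hD he p q hf l
  rw [← hm] at hm2
  have hl := loss_eq (k := k) hD q
  have hth2 := theta_le e (k := k) hD he (q + 1)
  have hD1 : (1 : ℝ) ≤ D := by exact_mod_cast hD
  have : 2 * (D : ℝ) * (theta k D (q + 1) + D / (W k D (q + 1) : ℝ))
      ≤ 8 * (D : ℝ) ^ 2 / (W k D (q + 1) : ℝ) := by
    calc 2 * (D : ℝ) * (theta k D (q + 1) + D / (W k D (q + 1) : ℝ))
        ≤ 2 * (D : ℝ) * (D / (W k D (q + 1) : ℝ) + D / (W k D (q + 1) : ℝ)) := by
          gcongr
          exact hth2.trans (by gcongr)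
      _ ≤ _ := by
          rw [le_div_iff₀ hW]; field_simp; linarith
  linarith

end

end Vale.Agent.P208
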