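import Mathlib
import Vale.Agent.P208.Step

namespace Vale.Agent.P208

open scoped RealInnerProductSpace
open MeasureTheory

noncomputable section

variable {E : Type*} [NormedAddCommGroup E] [InnerProductSpace ℝ E] (e : ℕ → E)
variable {k D : ℕ} (hD : 1 ≤ D) (he : Orthonormal ℝ e)
variable {f : E → EuclideanSpace ℝ (Fin k)}
include hD he

/-- Squared vertical increment of a column sheet. -/
def inc (k D : ℕ) (f : E → EuclideanSpace ℝ (Fin k)) (q c : ℕ) (s : Fin 2) (n : ℕ) (r : ℝ) : ℝ :=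
  ‖f (pt e ((c : ℝ) * (W k D q : ℝ) + r) ((n : ℝ) + 1) (offC e k D s c))
    - f (pt e ((c : ℝ) * (W k D q : ℝ) + r) (n : ℝ) (offC e k D s c))‖ ^ 2

omit hD he in
lemma two_sq_sum (G : ℕ) (a b : ℕ → ℝ) :
    (∑ l ∈ Finset.range G, (a l + b l)) ^ 2
      ≤ 2 * (G : ℝ) * ∑ l ∈ Finset.range G, (a l ^ 2 + b l ^ 2) := by
  refine (sq_sum_le_card_mul_sum_sq).trans ?_
  rw [Finset.card_range, mul_comm 2 (G : ℝ), mul_assoc]
  refine mul_le_mul_of_nonneg_left ?_ (Nat.cast_nonneg _)
  rw [Finset.mul_sum]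
  refine Finset.sum_le_sum fun l _ => ?_
  nlinarith [sq_nonneg (a l - b l)]

/-- Pointwise vertical gain in a block. -/
lemma block_pointwise (p q : ℕ) (hf : BiL D (Gad e k D (p + 1) (q + 1)) f)
    (i : Fin (Mx k D (q + 1))) {r : ℝ} (h0 : 0 ≤ r) (h1 : r ≤ W k D (q + 1))
    (hbad : ∀ j < My k D, ∃ b < G k D, ∃ n < G k D, ∃ n' < G k D,
      t k D < ‖gCol e k D f ((i : ℕ) * G k D + b) ((((i : ℕ) * G k D + b : ℕ) : ℝ) * W k D (q + 1) + r)
          ((j * G k D + n : ℕ) : ℝ)
        - gCol e k D f ((i : ℕ) * G k D + b) ((((i : ℕ) * G k D + b : ℕ) : ℝ) * W k D (q + 1) + r)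
          ((j * G k D + n' : ℕ) : ℝ)‖) :
    ∑ b ∈ Finset.range (G k D), 2 * (Y k D : ℝ) *
        (vert e k D f ((((i : ℕ) * G k D + b : ℕ) : ℝ) * W k D (q + 1) + r)
          - 2 * (D : ℝ) ^ 2 / (Y k D : ℝ))
      + (My k D : ℝ) * (t k D ^ 2 / (8 * (G k D : ℝ)))
      ≤ ∑ b ∈ Finset.range (G k D), ∑ s : Fin 2, ∑ n ∈ Finset.range (Y k D),
          inc e k D f (q + 1) ((i : ℕ) * G k D + b) s n r := by
  have ht := t_pos (k := k) hD
  have hY := Ypos' (k := k) hD
  have hW := Wpos' (k := k) hD (q + 1)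
  have hG : (0 : ℝ) < G k D := by exact_mod_cast G_pos k D
  set a : ℕ → Fin 2 → ℕ → EuclideanSpace ℝ (Fin k) := fun b s n =>
    f (pt e ((((i : ℕ) * G k D + b : ℕ) : ℝ) * W k D (q + 1) + r) (n : ℝ)
      (offC e k D s ((i : ℕ) * G k D + b))) with ha
  set m : ℕ → Fin 2 → EuclideanSpace ℝ (Fin k) := fun b s =>
    ((Y k D : ℝ))⁻¹ • (a b s (Y k D) - a b s 0) with hm
  set dev : ℕ → Fin 2 → ℕ → ℝ := fun b s n => ‖(a b s (n + 1) - a b s n) - m b s‖ with hdev
  have hc : ∀ b < G k D, (i : ℕ) * G k D + b < ncol k D (q + 1) := by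
    intro b hb
    have : ((i : ℕ) + 1) * G k D ≤ Mx k D (q + 1) * G k D := Nat.mul_le_mul_right _ i.2
    rw [Nat.succ_mul] at this
    simp only [ncol]; omega
  have hamem : ∀ b < G k D, ∀ s, ∀ n ≤ Y k D,
      pt e ((((i : ℕ) * G k D + b : ℕ) : ℝ) * W k D (q + 1) + r) (n : ℝ)
        (offC e k D s ((i : ℕ) * G k D + b)) ∈ Gad e k D (p + 1) (q + 1) := by
    intro b hb s n hn
    rcases Nat.lt_or_eq_of_le hn with h | h
    · exact (col_mem e hD p q ⟨_, hc b hb⟩ ⟨n, h⟩ s h0 h1).1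
    · have hY1 : Y k D - 1 < Y k D := by have := Y_pos (k := k) hD; omega
      have := (col_mem e hD p q ⟨_, hc b hb⟩ ⟨_, hY1⟩ s h0 h1).2
      have e1 : ((Y k D - 1 : ℕ) : ℝ) + 1 = (n : ℝ) := by
        rw [h]; exact_mod_cast Nat.sub_add_cancel (Y_pos (k := k) hD)
      rwa [e1] at this
  have hvarid : ∀ b < G k D, ∀ s, ∑ n ∈ Finset.range (Y k D),
      inc e k D f (q + 1) ((i : ℕ) * G k D + b) s n r
      = (Y k D : ℝ) * ‖m b s‖ ^ 2 + ∑ n ∈ Finset.range (Y k D), dev b s n ^ 2 := by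
    intro b hb s
    have h := variance_id (Finset.range (Y k D)) (fun n => a b s (n + 1) - a b s n) (m b s) (by
      rw [Finset.sum_range_sub (a b s) (Y k D), hm, Finset.card_range, smul_inv_smul₀ hY.ne'])
    rw [Finset.card_range] at h
    refine Eq.trans (Finset.sum_congr rfl fun n _ => ?_) h
    simp [inc, ha]
  -- comparison of averages with the base
  have hbase : ∀ b < G k D, ∀ s,
      vert e k D f ((((i : ℕ) * G k D + b : ℕ) : ℝ) * W k D (q + 1) + r)
        - 2 * (D : ℝ) ^ 2 / (Y k D : ℝ) ≤ ‖m b s‖ ^ 2 := by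
    intro b hb s
    set x := (((i : ℕ) * G k D + b : ℕ) : ℝ) * W k D (q + 1) + r with hx
    have hx0 : 0 ≤ x := by positivity
    have hx1 : x ≤ X k D (q + 1) := by
      have := hc b hb
      have h' : (((i : ℕ) * G k D + b : ℕ) : ℝ) + 1 ≤ ncol k D (q + 1) := by exact_mod_cast this
      have hX : (ncol k D (q + 1) : ℝ) * W k D (q + 1) = X k D (q + 1) := by
        exact_mod_cast ncol_mul_W k D (q + 1)
      rw [hx, ← hX]
      nlinarith [mul_le_mul_of_nonneg_right h' hW.le]
    have eg := gad_edges e (k := k) hD (p + 1) (q + 1) x hx0 hx1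
    have hd : ∀ y, ‖pt e x y 0 - pt e x y (offC e k D s ((i : ℕ) * G k D + b))‖ ≤ 1 / 128 := by
      intro y
      rw [pt_sub, pt, sub_self, sub_self, zero_smul, zero_smul, zero_add, zero_add, zero_sub, norm_neg]
      exact norm_offC e hD he _ _
    have m0 := hamem b hb s 0 (Nat.zero_le _)
    have mY := hamem b hb s (Y k D) le_rfl
    rw [Nat.cast_zero] at m0
    have u1 := ((hf _ eg.2 _ mY).2).trans (mul_le_mul_of_nonneg_left (hd _) (Nat.cast_nonneg _))
    have u0 := ((hf _ eg.1 _ m0).2).trans (mul_le_mul_of_nonneg_left (hd _) (Nat.cast_nonneg _))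
    have hab : ‖a b s (Y k D) - a b s 0‖ ≤ (D : ℝ) * (Y k D : ℝ) := by
      have := (hf _ mY _ m0).2
      rw [norm_pt_sub_y e he, sub_zero, abs_of_pos hY] at this
      simpa [ha, hx] using this
    have hmn : ‖m b s‖ = ‖a b s (Y k D) - a b s 0‖ / (Y k D : ℝ) := by
      rw [hm, norm_smul, norm_inv, Real.norm_eq_abs, abs_of_pos hY]; ring
    have hbD : ‖f (pt e x (Y k D) 0) - f (pt e x 0 0)‖ / (Y k D : ℝ) ≤ D := by
      rw [div_le_iff₀ hY]
      have := (hf _ eg.2 _ eg.1).2
      rwa [norm_pt_sub_y e he, sub_zero, abs_of_pos hY] at this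
    have hlow : ‖f (pt e x (Y k D) 0) - f (pt e x 0 0)‖ / (Y k D : ℝ) - (D : ℝ) / (Y k D : ℝ)
        ≤ ‖m b s‖ := by
      rw [hmn, ← sub_div, div_le_div_iff_of_pos_right hY]
      have h3 : ‖f (pt e x (Y k D) 0) - f (pt e x 0 0)‖
          ≤ ‖f (pt e x (Y k D) 0) - a b s (Y k D)‖ + ‖a b s (Y k D) - a b s 0‖
            + ‖f (pt e x 0 0) - a b s 0‖ := by
        rw [show f (pt e x (Y k D) 0) - f (pt e x 0 0) = (f (pt e x (Y k D) 0) - a b s (Y k D))
          + (a b s (Y k D) - a b s 0) + -(f (pt e x 0 0) - a b s 0) by abel]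
        refine norm_add₃_le.trans ?_
        rw [norm_neg]
      simp only [ha, ← hx, Nat.cast_zero] at h3 ⊢
      linarith [(Nat.cast_nonneg D : (0 : ℝ) ≤ D)]
    have hmD : ‖m b s‖ ≤ D := by rw [hmn, div_le_iff₀ hY]; exact hab
    have hsq := sq_lower (norm_nonneg _) hmD hbD (show (0:ℝ) ≤ (D : ℝ) / (Y k D : ℝ) by positivity)
      hlow (by positivity)
    have e2 : 2 * (D : ℝ) * ((D : ℝ) / (Y k D : ℝ)) = 2 * (D : ℝ) ^ 2 / (Y k D : ℝ) := by ring
    rw [e2] at hsq
    simpa [vert, div_pow] using hsq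
  -- deviations in every period
  have hper : ∀ j < My k D, ∃ b < G k D, t k D ^ 2 / (8 * (G k D : ℝ))
      ≤ ∑ l ∈ Finset.range (G k D), (dev b 0 (j * G k D + l) ^ 2 + dev b 1 (j * G k D + l) ^ 2) := by
    intro j hj
    obtain ⟨b, hb, n, hn, n', hn', hlt⟩ := hbad j hj
    refine ⟨b, hb, ?_⟩
    set g : ℕ → EuclideanSpace ℝ (Fin k) := fun l => a b 0 (j * G k D + l) - a b 1 (j * G k D + l)
      with hg
    have hgn : ∀ l, gCol e k D f ((i : ℕ) * G k D + b)
        ((((i : ℕ) * G k D + b : ℕ) : ℝ) * W k D (q + 1) + r) ((j * G k D + l : ℕ) : ℝ) = g l := by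
      intro l; simp [gCol, hg, ha]
    rw [hgn, hgn] at hlt
    have hmm : ‖m b 0 - m b 1‖ ≤ (D : ℝ) / (Y k D : ℝ) := by
      simp only [hm, ← smul_sub, norm_smul, norm_inv, Real.norm_eq_abs, abs_of_pos hY]
      rw [inv_mul_eq_div, div_le_div_iff_of_pos_right hY, sub_sub_sub_comm]
      refine (norm_sub_le _ _).trans ?_
      have key : ∀ n ≤ Y k D, ‖a b 0 n - a b 1 n‖ ≤ (D : ℝ) * (1 / 2) := by
        intro n hn
        refine ((hf _ (hamem b hb 0 n hn) _ (hamem b hb 1 n hn)).2).trans ?_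
        refine mul_le_mul_of_nonneg_left ?_ (Nat.cast_nonneg _)
        rw [pt_sub, pt, sub_self, sub_self, zero_smul, zero_smul, zero_add, zero_add]
        refine (norm_sub_le _ _).trans ?_
        have h1 := norm_offC (k := k) e hD he 0 ((i : ℕ) * G k D + b)
        have h2 := norm_offC (k := k) e hD he 1 ((i : ℕ) * G k D + b)
        linarith
      have := key _ le_rfl
      have := key 0 (Nat.zero_le _)
      linarith
    have hstep : ∀ l, ‖g (l + 1) - g l‖
        ≤ dev b 0 (j * G k D + l) + dev b 1 (j * G k D + l) + (D : ℝ) / (Y k D : ℝ) := by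
      intro l
      have : g (l + 1) - g l = ((a b 0 (j * G k D + l + 1) - a b 0 (j * G k D + l)) - m b 0)
          + -((a b 1 (j * G k D + l + 1) - a b 1 (j * G k D + l)) - m b 1) + (m b 0 - m b 1) := by
        simp only [hg, ← Nat.add_assoc]; abel
      rw [this]
      refine norm_add₃_le.trans ?_
      rw [norm_neg]
      simp only [hdev]
      linarith
    have hsum := (norm_sub_range_le g hn hn').trans (Finset.sum_le_sum fun l _ => hstep l)
    rw [Finset.sum_add_distrib, Finset.sum_const, Finset.card_range, nsmul_eq_mul] at hsum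
    have hGD : (G k D : ℝ) * ((D : ℝ) / (Y k D : ℝ)) ≤ t k D / 2 := by
      have h2 := two_DM_le_My (k := k) hD
      have hM : (0 : ℝ) < M k D := by exact_mod_cast M_pos hD
      have hMy : (0 : ℝ) < My k D := by exact_mod_cast My_pos hD
      have e1 : (G k D : ℝ) * ((D : ℝ) / (Y k D : ℝ)) = (D : ℝ) / (My k D : ℝ) := by
        simp only [Y]; push_cast; field_simp
      rw [e1]; simp only [t]
      rw [div_div, div_le_div_iff₀ hMy (by positivity)]
      linarith
    have h5 : t k D / 2 ≤ ∑ l ∈ Finset.range (G k D),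
        (dev b 0 (j * G k D + l) + dev b 1 (j * G k D + l)) := by linarith
    have h6 := two_sq_sum (G k D) (fun l => dev b 0 (j * G k D + l)) (fun l => dev b 1 (j * G k D + l))
    have h7 : (t k D / 2) ^ 2 ≤ 2 * (G k D : ℝ) *
        ∑ l ∈ Finset.range (G k D), (dev b 0 (j * G k D + l) ^ 2 + dev b 1 (j * G k D + l) ^ 2) :=
      le_trans (by gcongr) h6
    rw [div_le_iff₀ (by positivity)]
    linarith
  set w : ℕ → ℕ → ℝ := fun b n => dev b 0 n ^ 2 + dev b 1 n ^ 2 with hw
  have hwsum : (My k D : ℝ) * (t k D ^ 2 / (8 * (G k D : ℝ)))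
      ≤ ∑ b ∈ Finset.range (G k D), ∑ n ∈ Finset.range (Y k D), w b n := by
    have hsplit : ∀ b, ∑ n ∈ Finset.range (Y k D), w b n
        = ∑ j ∈ Finset.range (My k D), ∑ l ∈ Finset.range (G k D), w b (j * G k D + l) := by
      intro b; rw [sum_range_split (w b)]; rfl
    simp only [hsplit]
    rw [Finset.sum_comm]
    calc (My k D : ℝ) * (t k D ^ 2 / (8 * (G k D : ℝ)))
        = ∑ _j ∈ Finset.range (My k D), t k D ^ 2 / (8 * (G k D : ℝ)) := by simp
      _ ≤ _ := Finset.sum_le_sum fun j hj => by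
          obtain ⟨b, hb, hle⟩ := hper j (Finset.mem_range.mp hj)
          refine hle.trans (Finset.single_le_sum (f := fun b => ∑ l ∈ Finset.range (G k D),
            w b (j * G k D + l)) (fun b _ => Finset.sum_nonneg fun l _ => ?_) (Finset.mem_range.mpr hb))
          simp only [hw]; positivity
  calc _ ≤ ∑ b ∈ Finset.range (G k D), 2 * (Y k D : ℝ) *
        (vert e k D f ((((i : ℕ) * G k D + b : ℕ) : ℝ) * W k D (q + 1) + r)
          - 2 * (D : ℝ) ^ 2 / (Y k D : ℝ))
        + ∑ b ∈ Finset.range (G k D), ∑ n ∈ Finset.range (Y k D), w b n := by linarith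
    _ ≤ _ := by
      rw [← Finset.sum_add_distrib]
      refine Finset.sum_le_sum fun b hb => ?_
      have hb' := Finset.mem_range.mp hb
      simp only [hw, Finset.sum_add_distrib, Fin.sum_univ_two, hvarid b hb']
      have h2 := mul_le_mul_of_nonneg_left (hbase b hb' 0) hY.le
      have h3 := mul_le_mul_of_nonneg_left (hbase b hb' 1) hY.le
      linarith

lemma strip_integral (p q : ℕ) (hf : BiL D (Gad e k D p q) f) :
    ∑ i ∈ Finset.range (Mx k D q), ∑ b ∈ Finset.range (G k D),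
      (∫ r in (0 : ℝ)..(W k D q), vert e k D f (((i * G k D + b : ℕ) : ℝ) * W k D q + r))
      = psi e k D f q * (X k D q : ℝ) := by
  have hX := Xpos' (k := k) hD q
  have hW := Wpos' (k := k) hD q
  have hXn : (ncol k D q : ℝ) * W k D q = X k D q := by exact_mod_cast ncol_mul_W k D q
  rw [psi, div_mul_cancel₀ _ hX.ne', sum_range_split (fun c : ℕ =>
    ∫ r in (0 : ℝ)..(W k D q), vert e k D f ((c : ℝ) * W k D q + r))]
  have hI : ∀ c < ncol k D q, IntervalIntegrable (vert e k D f) volume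
      ((c : ℝ) * W k D q) (((c + 1 : ℕ) : ℝ) * W k D q) := by
    intro c hc
    have hle : (c : ℝ) * W k D q ≤ ((c + 1 : ℕ) : ℝ) * W k D q := by gcongr; omega
    refine ((vert_cont e hD he p q hf).mono (Set.Icc_subset_Icc (by positivity) ?_)).intervalIntegrable_of_Icc hle
    rw [← hXn]; gcongr; omega
  have h := intervalIntegral.sum_integral_adjacent_intervals
    (a := fun c : ℕ => (c : ℝ) * W k D q) hI
  simp only [Nat.cast_zero, zero_mul, hXn] at h
  rw [← h]
  refine Finset.sum_congr rfl fun c _ => ?_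
  rw [intervalIntegral.integral_comp_add_left]
  congr 1
  · simp
  · push_cast; ring

/-- One step: either a horizontal gain, or a vertical gain with a small horizontal loss. -/
theorem step (p q : ℕ) (hf : BiL D (Gad e k D (p + 1) (q + 1)) f) :
    (∃ i : IR k D (q + 1), phi e k D f (q + 1) + 3 / 2 * Gam k D (q + 1)
      ≤ phi e k D (childF (sR k D) (oR e k D (q + 1) i) f) (Qn k D)) ∨
    (∃ c : IC k D (q + 1), phi e k D f (q + 1) - Gam k D (q + 1) / 4 - Gam k D q / 4
        ≤ phi e k D (childF (sC k D) (oC e k D (q + 1) c) f) q ∧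
      psi e k D f (q + 1) + eta k D
        ≤ psi e k D (childF (sC k D) (oC e k D (q + 1) c) f) q) := by
  classical
  by_cases hbad : mu k D * (Mx k D (q + 1) : ℝ) ≤ ((badBlocks e f k D (q + 1)).card : ℝ)
  · exact Or.inl (gain_R e hD he p q hf hbad)
  push Not at hbad
  refine Or.inr ?_
  have hW := Wpos' (k := k) hD (q + 1)
  have hX := Xpos' (k := k) hD (q + 1)
  have hY := Ypos' (k := k) hD
  have hG : (0 : ℝ) < G k D := by exact_mod_cast G_pos k D
  have hD2 : (0 : ℝ) ≤ (D : ℝ) ^ 2 := sq_nonneg _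
  have hMx : (0 : ℝ) < Mx k D (q + 1) := lt_of_lt_of_le
    (by exact_mod_cast My_pos (k := k) hD) (My_le_Mx hD (q + 1))
  set J : ℕ → ℝ := fun i => ∑ b ∈ Finset.range (G k D),
    (∫ r in (0 : ℝ)..(W k D (q + 1)),
      vert e k D f (((i * G k D + b : ℕ) : ℝ) * W k D (q + 1) + r)) with hJ
  have hxr : ∀ i < Mx k D (q + 1), ∀ b < G k D, ∀ r : ℝ, 0 ≤ r → r ≤ W k D (q + 1) →
      0 ≤ ((i * G k D + b : ℕ) : ℝ) * W k D (q + 1) + r ∧
      ((i * G k D + b : ℕ) : ℝ) * W k D (q + 1) + r ≤ X k D (q + 1) := by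
    intro i hi b hb r hr0 hr1
    refine ⟨by positivity, ?_⟩
    have h : (i + 1) * G k D ≤ Mx k D (q + 1) * G k D := Nat.mul_le_mul_right _ hi
    rw [Nat.succ_mul] at h
    have h' : ((i * G k D + b : ℕ) : ℝ) + 1 ≤ ncol k D (q + 1) := by
      have : i * G k D + b + 1 ≤ ncol k D (q + 1) := by simp only [ncol]; omega
      exact_mod_cast this
    have hXn : (ncol k D (q + 1) : ℝ) * W k D (q + 1) = X k D (q + 1) := by
      exact_mod_cast ncol_mul_W k D (q + 1)
    rw [← hXn]
    nlinarith [mul_le_mul_of_nonneg_right h' hW.le]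
  have hvint : ∀ i < Mx k D (q + 1), ∀ b < G k D, IntervalIntegrable
      (fun r => vert e k D f (((i * G k D + b : ℕ) : ℝ) * W k D (q + 1) + r)) volume 0
        (W k D (q + 1)) := by
    intro i hi b hb
    refine ContinuousOn.intervalIntegrable_of_Icc hW.le ?_
    exact (vert_cont e hD he (p + 1) (q + 1) hf).comp (by fun_prop)
      (fun r hr => hxr i hi b hb r hr.1 hr.2)
  have hJD : ∀ i < Mx k D (q + 1), J i ≤ (G k D : ℝ) * W k D (q + 1) * (D : ℝ) ^ 2 := by
    intro i hi
    calc J i ≤ ∑ _b ∈ Finset.range (G k D), (W k D (q + 1) : ℝ) * (D : ℝ) ^ 2 := by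
          refine Finset.sum_le_sum fun b hb => ?_
          have := intervalIntegral.integral_mono_on hW.le (hvint i hi b (Finset.mem_range.mp hb))
            (intervalIntegrable_const (μ := volume) (c := (D : ℝ) ^ 2))
            (fun r hr => vert_le e hD he (p + 1) (q + 1) hf
              (hxr i hi b (Finset.mem_range.mp hb) r hr.1 hr.2).1
              (hxr i hi b (Finset.mem_range.mp hb) r hr.1 hr.2).2)
          rwa [intervalIntegral.integral_const, smul_eq_mul, sub_zero] at this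
      _ = _ := by rw [Finset.sum_const, Finset.card_range, nsmul_eq_mul]; ring
  -- a good block with large average
  obtain ⟨i, hi, hJi⟩ : ∃ i : Fin (Mx k D (q + 1)), i ∉ badBlocks e f k D (q + 1) ∧
      (G k D : ℝ) * W k D (q + 1) * (psi e k D f (q + 1) - mu k D * (D : ℝ) ^ 2) ≤ J i := by
    by_contra hno
    push Not at hno
    set bd := badBlocks e f k D (q + 1)
    have hXc : (X k D (q + 1) : ℝ) = (Mx k D (q + 1) : ℝ) * G k D * W k D (q + 1) := by
      rw [← ncol_mul_W k D (q + 1)]; simp only [ncol]; push_cast; ring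
    have hlt : (bd.card : ℝ) < Mx k D (q + 1) :=
      hbad.trans_le (mul_le_of_le_one_left hMx.le (mu_lt_one hD).le)
    obtain ⟨i0, hi0⟩ : ∃ i0, i0 ∉ bd := by
      by_contra hall
      push Not at hall
      have : bd = Finset.univ := Finset.eq_univ_of_forall hall
      rw [this, Finset.card_univ, Fintype.card_fin] at hlt
      exact lt_irrefl _ hlt
    have hJ0 : 0 ≤ J i0 := Finset.sum_nonneg fun b _ =>
      intervalIntegral.integral_nonneg hW.le fun r _ => by simp only [vert]; positivity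
    set th := (G k D : ℝ) * W k D (q + 1) * (psi e k D f (q + 1) - mu k D * (D : ℝ) ^ 2)
    have hth0 : 0 ≤ th := hJ0.trans (hno i0 hi0).le
    have htot : ∑ i : Fin (Mx k D (q + 1)), J i = psi e k D f (q + 1) * (X k D (q + 1) : ℝ) := by
      rw [Fin.sum_univ_eq_sum_range J]
      exact strip_integral e hD he (p + 1) (q + 1) hf
    rw [← Finset.sum_compl_add_sum bd] at htot
    have h1 : ∑ i ∈ bdᶜ, J i < (bdᶜ.card : ℝ) * th := by
      calc ∑ i ∈ bdᶜ, J i < ∑ _i ∈ bdᶜ, th :=
            Finset.sum_lt_sum_of_nonempty ⟨i0, Finset.mem_compl.mpr hi0⟩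
              (fun i hi => hno i (Finset.mem_compl.mp hi))
        _ = _ := by simp
    have h2 : ∑ i ∈ bd, J i ≤ (bd.card : ℝ) * ((G k D : ℝ) * W k D (q + 1) * (D : ℝ) ^ 2) := by
      calc ∑ i ∈ bd, J i ≤ ∑ _i ∈ bd, (G k D : ℝ) * W k D (q + 1) * (D : ℝ) ^ 2 :=
            Finset.sum_le_sum fun i _ => hJD i i.2
        _ = _ := by simp
    have h3 : (bdᶜ.card : ℝ) * th ≤ (Mx k D (q + 1) : ℝ) * th := by
      gcongr
      have := Finset.card_le_univ bdᶜ
      simpa using this
    have h4 : (bd.card : ℝ) * ((G k D : ℝ) * W k D (q + 1) * (D : ℝ) ^ 2)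
        ≤ mu k D * (Mx k D (q + 1) : ℝ) * ((G k D : ℝ) * W k D (q + 1) * (D : ℝ) ^ 2) := by
      gcongr
    rw [hXc] at htot
    simp only [th] at h1 h3
    linarith
  by_cases hgood : ∃ j < My k D, ∀ b < G k D, ∀ n < G k D, ∀ n' < G k D,
      ∃ r : ℝ, 0 ≤ r ∧ r ≤ W k D (q + 1) ∧
      ‖gCol e k D f ((i : ℕ) * G k D + b) ((((i : ℕ) * G k D + b : ℕ) : ℝ) * W k D (q + 1) + r)
          ((j * G k D + n : ℕ) : ℝ)
        - gCol e k D f ((i : ℕ) * G k D + b) ((((i : ℕ) * G k D + b : ℕ) : ℝ) * W k D (q + 1) + r)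
          ((j * G k D + n' : ℕ) : ℝ)‖ ≤ t k D
  · obtain ⟨j, hj, hC⟩ := hgood
    exact (no_good_cell e he hD p q i j hf i.2 hj (row_const e hD he p q hf hi) hC).elim
  push Not at hgood
  have hc : ∀ b : Fin (G k D), (i : ℕ) * G k D + b < ncol k D (q + 1) := by
    intro b
    have : ((i : ℕ) + 1) * G k D ≤ Mx k D (q + 1) * G k D := Nat.mul_le_mul_right _ i.2
    rw [Nat.succ_mul] at this
    simp only [ncol]; omega
  have hint : ∀ b < G k D, ∀ s : Fin 2, ∀ n < Y k D, IntervalIntegrable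
      (inc e k D f (q + 1) ((i : ℕ) * G k D + b) s n) volume 0 (W k D (q + 1)) := by
    intro b hb s n hn
    refine ContinuousOn.intervalIntegrable_of_Icc hW.le ?_
    have cm := fun r (hr : r ∈ Set.Icc (0 : ℝ) (W k D (q + 1))) =>
      col_mem e hD p q ⟨_, hc ⟨b, hb⟩⟩ ⟨n, hn⟩ s hr.1 hr.2
    have l1 := line_cont e hD he hf ((n : ℝ) + 1) _ _ (fun r hr => (cm r hr).2)
    have l2 := line_cont e hD he hf (n : ℝ) _ _ (fun r hr => (cm r hr).1)
    exact ((l1.sub l2).norm.pow 2)
  have hpt : ∀ r ∈ Set.Icc (0 : ℝ) (W k D (q + 1)), _ := fun r hr =>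
    block_pointwise e hD he p q hf i hr.1 hr.2 (fun j hj => by
      obtain ⟨b, hb, n, hn, n', hn', h⟩ := hgood j hj
      exact ⟨b, hb, n, hn, n', hn', h r hr.1 hr.2⟩)
  have hL : ∀ b ∈ Finset.range (G k D), IntervalIntegrable (fun r => 2 * (Y k D : ℝ) *
      (vert e k D f ((((i : ℕ) * G k D + b : ℕ) : ℝ) * W k D (q + 1) + r)
        - 2 * (D : ℝ) ^ 2 / (Y k D : ℝ))) volume 0 (W k D (q + 1)) := fun b hb =>
    ((hvint i i.2 b (Finset.mem_range.mp hb)).sub intervalIntegrable_const).const_mul _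
  have hinner : ∀ b ∈ Finset.range (G k D), ∀ s : Fin 2, IntervalIntegrable
      (fun r => ∑ n ∈ Finset.range (Y k D), inc e k D f (q + 1) ((i : ℕ) * G k D + b) s n r)
      volume 0 (W k D (q + 1)) := fun b hb s => by
    have h := IntervalIntegrable.sum (Finset.range (Y k D))
      (fun n hn => hint b (Finset.mem_range.mp hb) s n (Finset.mem_range.mp hn))
    rwa [Finset.sum_fn] at h
  have houter : ∀ b ∈ Finset.range (G k D), IntervalIntegrable (fun r => ∑ s : Fin 2,
      ∑ n ∈ Finset.range (Y k D), inc e k D f (q + 1) ((i : ℕ) * G k D + b) s n r)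
      volume 0 (W k D (q + 1)) := fun b hb => by
    have h := IntervalIntegrable.sum (Finset.univ : Finset (Fin 2)) (fun s _ => hinner b hb s)
    rwa [Finset.sum_fn] at h
  have hLs : IntervalIntegrable (fun r => ∑ b ∈ Finset.range (G k D), 2 * (Y k D : ℝ) *
      (vert e k D f ((((i : ℕ) * G k D + b : ℕ) : ℝ) * W k D (q + 1) + r)
        - 2 * (D : ℝ) ^ 2 / (Y k D : ℝ))) volume 0 (W k D (q + 1)) := by
    have h := IntervalIntegrable.sum (Finset.range (G k D)) hL
    rwa [Finset.sum_fn] at h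
  have hRs : IntervalIntegrable (fun r => ∑ b ∈ Finset.range (G k D), ∑ s : Fin 2,
      ∑ n ∈ Finset.range (Y k D), inc e k D f (q + 1) ((i : ℕ) * G k D + b) s n r)
      volume 0 (W k D (q + 1)) := by
    have h := IntervalIntegrable.sum (Finset.range (G k D)) houter
    rwa [Finset.sum_fn] at h
  have hmono := intervalIntegral.integral_mono_on hW.le (hLs.add intervalIntegrable_const) hRs hpt
  rw [intervalIntegral.integral_add hLs intervalIntegrable_const,
    intervalIntegral.integral_finsetSum hL, intervalIntegral.integral_finsetSum houter,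
    intervalIntegral.integral_const, smul_eq_mul, sub_zero] at hmono
  have hR1 : ∑ b ∈ Finset.range (G k D), (∫ r in (0 : ℝ)..(W k D (q + 1)), ∑ s : Fin 2,
      ∑ n ∈ Finset.range (Y k D), inc e k D f (q + 1) ((i : ℕ) * G k D + b) s n r)
      = ∑ x : Fin (G k D) × Fin 2 × Fin (Y k D), ∫ r in (0 : ℝ)..(W k D (q + 1)),
          inc e k D f (q + 1) ((i : ℕ) * G k D + x.1) x.2.1 x.2.2 r := by
    rw [Fintype.sum_prod_type, Finset.sum_range]
    refine Finset.sum_congr rfl fun b _ => ?_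
    rw [Fintype.sum_prod_type, intervalIntegral.integral_finsetSum
      (fun s _ => hinner b (Finset.mem_range.mpr b.2) s)]
    refine Finset.sum_congr rfl fun s _ => ?_
    rw [intervalIntegral.integral_finsetSum (fun n hn => hint b b.2 s n (Finset.mem_range.mp hn)),
      Finset.sum_range]
  rw [hR1] at hmono
  have hL1 : ∑ b ∈ Finset.range (G k D), (∫ r in (0 : ℝ)..(W k D (q + 1)), 2 * (Y k D : ℝ) *
      (vert e k D f ((((i : ℕ) * G k D + b : ℕ) : ℝ) * W k D (q + 1) + r)
        - 2 * (D : ℝ) ^ 2 / (Y k D : ℝ)))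
      = 2 * (Y k D : ℝ) * (J i - (G k D : ℝ) * W k D (q + 1) * (2 * (D : ℝ) ^ 2 / (Y k D : ℝ))) := by
    have hb : ∀ b ∈ Finset.range (G k D), (∫ r in (0 : ℝ)..(W k D (q + 1)), 2 * (Y k D : ℝ) *
      (vert e k D f ((((i : ℕ) * G k D + b : ℕ) : ℝ) * W k D (q + 1) + r)
        - 2 * (D : ℝ) ^ 2 / (Y k D : ℝ))) = 2 * (Y k D : ℝ) *
        ((∫ r in (0 : ℝ)..(W k D (q + 1)),
          vert e k D f ((((i : ℕ) * G k D + b : ℕ) : ℝ) * W k D (q + 1) + r))
          - (W k D (q + 1) : ℝ) * (2 * (D : ℝ) ^ 2 / (Y k D : ℝ))) := by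
      intro b hb
      rw [intervalIntegral.integral_const_mul,
        intervalIntegral.integral_sub (hvint i i.2 b (Finset.mem_range.mp hb)) intervalIntegrable_const,
        intervalIntegral.integral_const, smul_eq_mul, sub_zero]
    rw [Finset.sum_congr rfl hb, ← Finset.mul_sum, Finset.sum_sub_distrib, Finset.sum_const,
      Finset.card_range, nsmul_eq_mul]
    simp only [hJ]
    ring
  rw [hL1] at hmono
  haveI : Nonempty (Fin (G k D) × Fin 2 × Fin (Y k D)) :=
    ⟨(⟨0, G_pos k D⟩, 0, ⟨0, Y_pos hD⟩)⟩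
  obtain ⟨x, -, hx⟩ := Finset.exists_le_of_sum_le
    (s := (Finset.univ : Finset (Fin (G k D) × Fin 2 × Fin (Y k D))))
    (f := fun _ => (W k D (q + 1) : ℝ) * (psi e k D f (q + 1) + eta k D))
    (g := fun x => ∫ r in (0 : ℝ)..(W k D (q + 1)),
      inc e k D f (q + 1) ((i : ℕ) * G k D + x.1) x.2.1 x.2.2 r) Finset.univ_nonempty (by
    refine le_trans ?_ hmono
    rw [Finset.sum_const, Finset.card_univ, nsmul_eq_mul]
    simp only [Fintype.card_prod, Fintype.card_fin]
    push_cast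
    have h1 := mul_le_mul_of_nonneg_left hJi (show (0 : ℝ) ≤ 2 * Y k D by positivity)
    have h2 := err_small (k := k) hD
    have h3 : (My k D : ℝ) * (t k D ^ 2 / (8 * (G k D : ℝ)))
        = 2 * (Y k D : ℝ) * G k D * (2 * eta k D) := by
      have hM : (0 : ℝ) < M k D := by exact_mod_cast M_pos hD
      simp only [eta, t, Y]; push_cast; field_simp; ring
    have h4 : mu k D * (D : ℝ) ^ 2 ≤ eta k D / 2 := by
      have hM : (0 : ℝ) < M k D := by exact_mod_cast M_pos hD
      have hD0 : (0 : ℝ) < D := by exact_mod_cast hD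
      simp only [mu, eta]; field_simp; norm_num
    rw [h3]
    have h5 := mul_le_mul_of_nonneg_left (add_le_add h2 h4)
      (show (0 : ℝ) ≤ 2 * Y k D * G k D * W k D (q + 1) by positivity)
    linarith)
  refine ⟨(⟨_, hc x.1⟩, x.2.2, x.2.1), ?_, ?_⟩
  · exact col_phi e hD he p q hf hi _ (Nat.le_add_right _ _) (Nat.add_lt_add_left x.1.2 _)
  · rw [psi_child_C e hD, le_div_iff₀ hW, mul_comm]
    exact hx

/-- No normalised two-sided Lipschitz map exists on a large gadget. -/
theorem no_map : ∀ p q, q ≤ Qn k D → ∀ f : E → EuclideanSpace ℝ (Fin k),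
    BiL D (Gad e k D p q) f →
    (D : ℝ) ^ 2 - p * gam k D + 2 * sig k D q < phi e k D f q →
    (D : ℝ) ^ 2 - q * eta k D < psi e k D f q → False := by
  intro p q
  induction p, q using Gad.induct k D with
  | case1 q =>
    intro _ f hf hφ _
    have := phi_le e hD he 0 q hf
    have := sig_nonneg (k := k) hD q
    simp only [Nat.cast_zero, zero_mul] at hφ
    linarith
  | case2 p =>
    intro _ f hf _ hψ
    have := psi_le e hD he (p + 1) 0 hf
    simp only [Nat.cast_zero, zero_mul] at hψ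
    linarith
  | case3 p q ih1 ih2 =>
    intro hq f hf hφ hψ
    have hs := sR_pos (k := k) hD
    have hs' := sC_pos (k := k) hD
    rcases step e hD he p q hf with ⟨i, hi⟩ | ⟨c, hc1, hc2⟩
    · have hf' := bil_child hf hs (gad_sub_R e p q i)
      refine ih1 le_rfl _ hf' ?_ ?_
      · have h1 := sig_diff (k := k) hD hq
        have h2 := Gam_anti (k := k) hD hq
        have h3 : gam k D = Gam k D (Qn k D) / 2 := rfl
        push_cast at hφ
        linarith
      · have := Qn_eta (k := k) hD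
        have : 0 ≤ psi e k D (childF (sR k D) (oR e k D (q + 1) i) f) (Qn k D) := by
          refine div_nonneg (intervalIntegral.integral_nonneg (Nat.cast_nonneg _) fun x _ => ?_)
            (Nat.cast_nonneg _)
          simp only [vert]; positivity
        linarith
    · have hf' := bil_child hf hs' (gad_sub_C e p q c)
      refine ih2 (by omega) _ hf' ?_ ?_
      · have h1 : sig k D (q + 1) = sig k D q + Gam k D q / 4 := Finset.sum_range_succ _ q
        have h2 := Gam_succ (k := k) hD q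
        have h3 := Gam_pos (k := k) hD (q + 1)
        linarith
      · push_cast at hψ
        linarith

end

end Vale.Agent.P208
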