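import Mathlib
import Vale.Agent.P208.Cover
import Vale.Agent.P208.Dichotomy

namespace Vale.Agent.P208

open scoped RealInnerProductSpace

noncomputable section

/-- The coordinate unit vectors of sequence space. -/
def unitVec (i : ℕ) : lp (fun _ : ℕ => ℝ) 2 := lp.single 2 i (1 : ℝ)

lemma unitVec_orthonormal : Orthonormal ℝ unitVec := by
  rw [orthonormal_iff_ite]
  intro i j
  rw [unitVec, unitVec, lp.inner_single_left]
  by_cases h : i = j
  · subst h; simp
  · simp [h, Pi.single_eq_of_ne h]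

/-- Number of allowed horizontal improvements. -/
def pStart (k D : ℕ) : ℕ := ⌈((D : ℝ) ^ 2 + 2 * sig k D (Qn k D)) / gam k D⌉₊ + 1

/-- Distortion attached to a piece. -/
def dOf (n : ℕ) : ℕ := (Nat.unpair n).2 + 1

/-- Target dimension attached to a piece. -/
def kOf (n : ℕ) : ℕ := (Nat.unpair n).1

lemma one_le_dOf (n : ℕ) : 1 ≤ dOf n := Nat.le_add_left _ _

/-- Scale of a piece. -/
def pieceScale (n : ℕ) : ℝ :=
  1 / ((X (kOf n) (dOf n) (Qn (kOf n) (dOf n)) : ℝ) + (Y (kOf n) (dOf n) : ℝ) + 1)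

lemma pieceScale_pos (n : ℕ) : 0 < pieceScale n := by simp only [pieceScale]; positivity

variable {E : Type*} [NormedAddCommGroup E] [InnerProductSpace ℝ E] (e : ℕ → E)

/-- One piece of the example. -/
def piece (n : ℕ) : Set E :=
  place (pieceScale n) (pt e ((8 : ℝ) ^ n) 0 0) ''
    Gad e (kOf n) (dOf n) (pStart (kOf n) (dOf n)) (Qn (kOf n) (dOf n))

/-- The example. -/
def example208 : Set E := ⋃ n, piece e n

variable (he : Orthonormal ℝ e)
include he

lemma piece_shape (n : ℕ) : ∀ z ∈ piece e n, ∃ x y : ℝ, ∃ u : E, (8 : ℝ) ^ n ≤ x ∧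
    x ≤ (8 : ℝ) ^ n + 1 ∧ ⟪e 0, u⟫ = 0 ∧ ⟪e 1, u⟫ = 0 ∧ ‖u‖ ≤ 1 / 64 ∧ z = pt e x y u := by
  rintro _ ⟨w, hw, rfl⟩
  obtain ⟨x, y, u, h1, h2, h3, h4, h5, h6, h7, rfl⟩ := gad_bound e (one_le_dOf n) he _ _ w hw
  have hs := pieceScale_pos n
  have hden : pieceScale n *
      ((X (kOf n) (dOf n) (Qn (kOf n) (dOf n)) : ℝ) + (Y (kOf n) (dOf n) : ℝ) + 1) = 1 := by
    simp only [pieceScale]; field_simp
  have hX : (0 : ℝ) ≤ X (kOf n) (dOf n) (Qn (kOf n) (dOf n)) := Nat.cast_nonneg _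
  have hY : (0 : ℝ) ≤ Y (kOf n) (dOf n) := Nat.cast_nonneg _
  have hs1 : pieceScale n ≤ 1 := by
    have := mul_le_mul_of_nonneg_left (show (1 : ℝ) ≤
      (X (kOf n) (dOf n) (Qn (kOf n) (dOf n)) : ℝ) + (Y (kOf n) (dOf n) : ℝ) + 1 by linarith) hs.le
    linarith
  have hx : pieceScale n * x ≤ 1 := by
    rw [← hden]; exact mul_le_mul_of_nonneg_left (by linarith) hs.le
  refine ⟨_, _, _, ?_, ?_, ?_, ?_, ?_, place_pt e _ _ _ _ _ _ _⟩
  · have : 0 ≤ pieceScale n * x := by positivity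
    linarith
  · linarith
  · simp [real_inner_smul_right, h5]
  · simp [real_inner_smul_right, h6]
  · rw [zero_add, norm_smul, Real.norm_eq_abs, abs_of_pos hs]
    calc pieceScale n * ‖u‖ ≤ 1 * (1 / 64) := mul_le_mul hs1 h7 (norm_nonneg _) zero_le_one
      _ = 1 / 64 := one_mul _

lemma piece_near {n : ℕ} {ctr : E} {r : ℝ}
    (h : (piece e n ∩ Metric.closedBall ctr r).Nonempty) :
    ⟪e 0, ctr⟫ - r - 1 ≤ (8 : ℝ) ^ n ∧ (8 : ℝ) ^ n ≤ ⟪e 0, ctr⟫ + r := by
  obtain ⟨z, hz, hzb⟩ := h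
  obtain ⟨x, y, u, h1, h2, h5, h6, h7, rfl⟩ := piece_shape e he n z hz
  have := abs_coord_le e he 0 _ _ hzb
  rw [xc_pt e he x y h5] at this
  have := abs_le.mp this
  constructor <;> linarith [this.1, this.2]

theorem example_cov (ctr : E) (r : ℝ) (hr : 0 < r) : CovAt (example208 e) ctr r 18144 := by
  classical
  by_cases h8 : 8 ≤ r
  · refine (cov_flat e he hr {0} fun z hz => ?_).mono (by simp)
    obtain ⟨n, hn⟩ := Set.mem_iUnion.mp hz.1
    obtain ⟨x, y, u, h1, h2, h5, h6, h7, rfl⟩ := piece_shape e he n z hn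
    exact ⟨0, Finset.mem_singleton_self _, x, y, u, h5, h6, by rw [sub_zero]; linarith, rfl⟩
  push Not at h8
  have key : ∃ T : Finset ℕ, T.card ≤ 2 ∧
      ∀ n, (piece e n ∩ Metric.closedBall ctr r).Nonempty → n ∈ T := by
    by_cases hbig : ∃ m, 2 ≤ m ∧ (piece e m ∩ Metric.closedBall ctr r).Nonempty
    · obtain ⟨m, hm, hmne⟩ := hbig
      refine ⟨{m}, by simp, fun n hn => Finset.mem_singleton.mpr ?_⟩
      have a := piece_near e he hn
      have b := piece_near e he hmne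
      by_contra hne
      rcases lt_or_gt_of_ne hne with h | h
      · have h1 : (8 : ℝ) ^ n * 8 ≤ (8 : ℝ) ^ m := by
          rw [← pow_succ]; exact pow_le_pow_right₀ (by norm_num) h
        have h2 : (8 : ℝ) ^ 2 ≤ (8 : ℝ) ^ m := pow_le_pow_right₀ (by norm_num) hm
        linarith [a.1, b.2]
      · have h1 : (8 : ℝ) ^ m * 8 ≤ (8 : ℝ) ^ n := by
          rw [← pow_succ]; exact pow_le_pow_right₀ (by norm_num) h
        have h2 : (8 : ℝ) ^ 2 ≤ (8 : ℝ) ^ m := pow_le_pow_right₀ (by norm_num) hm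
        linarith [b.1, a.2]
    · push Not at hbig
      refine ⟨{0, 1}, Finset.card_le_two, fun n hn => ?_⟩
      have : n < 2 := by
        by_contra hge
        have h := hbig n (not_lt.mp hge)
        rw [h] at hn
        exact Set.not_nonempty_empty hn
      simp only [Finset.mem_insert, Finset.mem_singleton]
      omega
  obtain ⟨T, hT, hTmem⟩ := key
  refine (CovAt.biUnion T (piece e) (fun _ => 9072) ?_ ?_).mono ?_
  · intro z hz
    obtain ⟨n, hn⟩ := Set.mem_iUnion.mp hz.1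
    exact Set.mem_iUnion₂.mpr ⟨n, hTmem n ⟨z, hn, hz.2⟩, hn⟩
  · intro n _
    exact (cov_root e he (one_le_dOf n) _ _ _ _ (div_pos hr (pieceScale_pos n))).place
      (pieceScale_pos n)
  · simp only [Finset.sum_const, smul_eq_mul]
    omega

omit he in
lemma cov_iter {S : Set E} {N : ℕ} (h : ∀ c r, 0 < r → CovAt S c r N) :
    ∀ j : ℕ, ∀ c r, 0 < r → ∃ F : Finset E, F.card ≤ N ^ j ∧
      S ∩ Metric.closedBall c r ⊆ ⋃ d ∈ F, Metric.closedBall d (r / 2 ^ j) := by
  classical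
  intro j
  induction j with
  | zero => intro c r _; exact ⟨{c}, by simp, by simp⟩
  | succ j ih =>
    intro c r hr
    obtain ⟨F, hF, hFc⟩ := ih c r hr
    choose Gf hG hGc using fun d => h d (r / 2 ^ j) (by positivity)
    refine ⟨F.biUnion Gf, ?_, ?_⟩
    · refine Finset.card_biUnion_le.trans ((Finset.sum_le_card_nsmul _ _ N fun d _ => hG d).trans ?_)
      rw [smul_eq_mul, pow_succ]
      gcongr
    · intro z hz
      have := hFc hz
      simp only [Set.mem_iUnion] at this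
      obtain ⟨d, hd, hzd⟩ := this
      have := hGc d ⟨hz.1, hzd⟩
      simp only [Set.mem_iUnion] at this ⊢
      obtain ⟨d', hd', hzd'⟩ := this
      refine ⟨d', Finset.mem_biUnion.mpr ⟨d, hd, hd'⟩, ?_⟩
      rwa [pow_succ, ← div_div]

theorem example_doubling : ∃ Λ : ℕ, ∀ x ∈ example208 e, ∀ r : ℝ, 0 < r → ∃ s : Finset E,
    (↑s : Set E) ⊆ example208 e ∧ s.card ≤ Λ ∧
    example208 e ∩ Metric.closedBall x r ⊆ ⋃ y ∈ s, Metric.ball y (r / 2) := by
  classical
  refine ⟨18144 ^ 3, fun x _ r hr => ?_⟩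
  obtain ⟨F, hF, hFc⟩ := cov_iter (example_cov e he) 3 x r hr
  set F' := F.filter (fun d => (example208 e ∩ Metric.closedBall d (r / 2 ^ 3)).Nonempty) with hF'
  have hrep : ∀ d ∈ F', ∃ y, y ∈ example208 e ∩ Metric.closedBall d (r / 2 ^ 3) :=
    fun d hd => (Finset.mem_filter.mp hd).2
  choose rep hrep using hrep
  refine ⟨F'.attach.image (fun d => rep d.1 d.2), ?_, ?_, ?_⟩
  · intro y hy
    simp only [Finset.coe_image, Set.mem_image] at hy
    obtain ⟨d, -, rfl⟩ := hy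
    exact (hrep _ d.2).1
  · exact Finset.card_image_le.trans
      ((Finset.card_attach (s := F')).le.trans ((Finset.card_filter_le _ _).trans hF))
  · intro z hz
    have := hFc hz
    simp only [Set.mem_iUnion] at this ⊢
    obtain ⟨d, hd, hzd⟩ := this
    have hd' : d ∈ F' := Finset.mem_filter.mpr ⟨hd, z, hz.1, hzd⟩
    refine ⟨rep d hd', Finset.mem_image.mpr ⟨⟨d, hd'⟩, Finset.mem_attach _ _, rfl⟩, ?_⟩
    have h1 := (hrep d hd').2
    rw [Metric.mem_closedBall] at h1 hzd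
    rw [Metric.mem_ball]
    calc dist z (rep d hd') ≤ dist z d + dist (rep d hd') d := dist_triangle_right _ _ _
      _ ≤ r / 2 ^ 3 + r / 2 ^ 3 := add_le_add hzd h1
      _ < r / 2 := by linarith

theorem example_no_embedding (k : ℕ) (f : example208 e → EuclideanSpace ℝ (Fin k)) (a D : ℝ)
    (ha : 0 < a) :
    ¬ (∀ x y : example208 e, a * dist x y ≤ dist (f x) (f y) ∧
      dist (f x) (f y) ≤ D * a * dist x y) := by
  classical
  intro hf
  set D' := ⌈D⌉₊ with hD'
  set n := Nat.pair k D' with hn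
  have hk : kOf n = k := by simp [kOf, hn]
  have hd : (D : ℝ) ≤ dOf n := by
    simp only [dOf, hn, Nat.unpair_pair]
    push_cast
    linarith [Nat.le_ceil D]
  set F : E → EuclideanSpace ℝ (Fin k) := fun z =>
    if h : z ∈ example208 e then a⁻¹ • f ⟨z, h⟩ else 0 with hF
  have hbil : BiL (dOf n) (piece e n) F := by
    intro z hz w hw
    have hz' : z ∈ example208 e := Set.mem_iUnion.mpr ⟨n, hz⟩
    have hw' : w ∈ example208 e := Set.mem_iUnion.mpr ⟨n, hw⟩
    have h := hf ⟨z, hz'⟩ ⟨w, hw'⟩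
    rw [Subtype.dist_eq, dist_eq_norm, dist_eq_norm] at h
    simp only [hF, dif_pos hz', dif_pos hw', ← smul_sub, norm_smul, norm_inv, Real.norm_eq_abs,
      abs_of_pos ha]
    constructor
    · rw [le_inv_mul_iff₀ ha]; exact h.1
    · rw [inv_mul_le_iff₀ ha]
      calc ‖f ⟨z, hz'⟩ - f ⟨w, hw'⟩‖ ≤ D * a * ‖z - w‖ := h.2
        _ ≤ (dOf n : ℝ) * a * ‖z - w‖ := by gcongr
        _ = _ := by ring
  clear_value F n
  clear hF hn
  subst hk
  have hD1 := one_le_dOf n
  have hb := bil_child (T := Gad e (kOf n) (dOf n) (pStart (kOf n) (dOf n)) (Qn (kOf n) (dOf n)))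
    hbil (pieceScale_pos n) (o := pt e ((8 : ℝ) ^ n) 0 0) subset_rfl
  refine no_map e hD1 he _ _ le_rfl _ hb ?_ ?_
  · have hg : 0 < gam (kOf n) (dOf n) := by
      have := Gam_pos (k := kOf n) hD1 (Qn (kOf n) (dOf n))
      simp only [gam]; linarith
    have h1 := Nat.le_ceil (((dOf n : ℝ) ^ 2 + 2 * sig (kOf n) (dOf n) (Qn (kOf n) (dOf n))) /
      gam (kOf n) (dOf n))
    rw [div_le_iff₀ hg] at h1
    refine lt_of_lt_of_le ?_ (div_nonneg (sq_nonneg _) (sq_nonneg _))
    simp only [pStart]; push_cast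
    linarith
  · have := Qn_eta (k := kOf n) hD1
    refine lt_of_lt_of_le (by linarith : _ < (0 : ℝ))
      (div_nonneg (intervalIntegral.integral_nonneg (Nat.cast_nonneg _) fun x _ => ?_)
        (Nat.cast_nonneg _))
    simp only [vert]; positivity

end

end Vale.Agent.P208
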